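import Mathlib

/-!
A real point with a transcendental coordinate `τ` moves along `τ` without losing any algebraic
relation with coefficients in the ground ring.  Consequently the least value of a semidefinite
programme whose data lie in `R` is algebraic over `R`.
-/

namespace Vale.Agent.P256.SmoothLift

open Filter Topology Polynomial

section Step

variable {A : Type*} [CommRing A] {σ : Type*}

lemma exists_reduced (ev : A →+* ℝ) (P : Polynomial A) :
    ∃ M : Polynomial A, M.map ev = P.map ev ∧ M.degree = (P.map ev).degree :=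
  exists_degree_eq_of_mem_lifts ⟨P, rfl⟩

lemma pseudo_div (M : Polynomial A) (hM : 1 ≤ M.natDegree) :
    ∀ N (P : Polynomial A), P.natDegree ≤ N → ∃ (k : ℕ) (Q B : Polynomial A),
      C (M.leadingCoeff) ^ k * P = M * Q + B ∧ B.natDegree < M.natDegree := by
  intro N
  induction N using Nat.strong_induction_on with
  | _ N ih =>
    intro P hP
    by_cases hlt : P.natDegree < M.natDegree
    · exact ⟨0, 0, P, by simp, hlt⟩
    push Not at hlt
    set e := P.natDegree with he
    set d := M.natDegree with hd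
    set P₁ := C M.leadingCoeff * P - M * (C P.leadingCoeff * X ^ (e - d)) with hP₁
    have hdeg : P₁.natDegree ≤ e - 1 := by
      rw [natDegree_le_iff_coeff_eq_zero]
      intro i hi
      rw [hP₁, coeff_sub, coeff_C_mul, ← mul_assoc, coeff_mul_X_pow']
      have hle : e - d ≤ i := by omega
      rw [if_pos hle, coeff_mul_C]
      rcases Nat.lt_or_ge e i with h | h
      · rw [coeff_eq_zero_of_natDegree_lt (p := P) (by omega),
          coeff_eq_zero_of_natDegree_lt (p := M) (by omega)]
        simp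
      · have hie : i = e := by omega
        rw [hie]
        have hsub : e - (e - d) = d := by omega
        rw [hsub]
        simp only [leadingCoeff, ← he, ← hd]
        ring
    obtain ⟨k, Q, B, hQB, hB⟩ := ih (e - 1) (by omega) P₁ hdeg
    refine ⟨k + 1, C M.leadingCoeff ^ k * (C P.leadingCoeff * X ^ (e - d)) + Q, B, ?_, hB⟩
    have hsplit : C M.leadingCoeff * P = P₁ + M * (C P.leadingCoeff * X ^ (e - d)) := by
      rw [hP₁]; ring
    rw [pow_succ, mul_assoc, hsplit, mul_add, hQB]
    ring

/-- Extension of a family of evaluations, which keeps all the relations at the base point, by a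
root of a polynomial relation. -/
lemma exists_root_extension (ev₀ : A →+* ℝ) (ev : σ → A →+* ℝ) (l : Filter σ)
    (htend : ∀ a, Tendsto (fun s => ev s a) l (𝓝 (ev₀ a)))
    (hzero : ∀ a, ev₀ a = 0 → ∀ᶠ s in l, ev s a = 0) (c : ℝ) :
    ∃ cs : σ → ℝ, Tendsto cs l (𝓝 c) ∧
      ∀ P : Polynomial A, P.eval₂ ev₀ c = 0 → ∀ᶠ s in l, P.eval₂ (ev s) (cs s) = 0 := by
  classical
  have hmap0 : ∀ P : Polynomial A, P.map ev₀ = 0 → ∀ᶠ s in l, P.map (ev s) = 0 := by
    intro P hP
    have h : ∀ i ∈ P.support, ∀ᶠ s in l, ev s (P.coeff i) = 0 := by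
      intro i _
      apply hzero
      have := congrArg (fun q => q.coeff i) hP
      simpa using this
    filter_upwards [(P.support.eventually_all).mpr h] with s hs
    ext i
    by_cases hi : i ∈ P.support
    · simpa using hs i hi
    · simp [Polynomial.notMem_support_iff.mp hi]
  by_cases hall : ∀ P : Polynomial A, P.eval₂ ev₀ c = 0 → P.map ev₀ = 0
  · refine ⟨fun _ => c, tendsto_const_nhds, fun P hP => ?_⟩
    filter_upwards [hmap0 P (hall P hP)] with s hs
    rw [← eval_map, hs, eval_zero]
  push Not at hall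
  have hex : ∃ d, ∃ P : Polynomial A,
      P.eval₂ ev₀ c = 0 ∧ P.map ev₀ ≠ 0 ∧ (P.map ev₀).natDegree = d := by
    obtain ⟨P, h1, h2⟩ := hall
    exact ⟨_, P, h1, h2, rfl⟩
  set d := Nat.find hex with hd
  obtain ⟨P₀, hP₀c, hP₀n, hP₀d⟩ := Nat.find_spec hex
  have hmin : ∀ P : Polynomial A, P.eval₂ ev₀ c = 0 → (P.map ev₀).natDegree < d →
      P.map ev₀ = 0 := fun P h1 h2 => by_contra fun h3 => Nat.find_min hex h2 ⟨P, h1, h3, rfl⟩
  obtain ⟨M, hMmap, hMdeg⟩ := exists_reduced ev₀ P₀
  set f := P₀.map ev₀ with hf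
  have hMn : M.natDegree = d := by
    rw [natDegree_eq_of_degree_eq hMdeg]
    exact hP₀d
  have hfc : f.eval c = 0 := by rw [hf, eval_map]; exact hP₀c
  have hd1 : 1 ≤ d := by
    by_contra h
    have h0 : f.natDegree = 0 := by omega
    obtain ⟨r, hr⟩ := natDegree_eq_zero.mp h0
    apply hP₀n
    rw [← hr] at hfc ⊢
    simp only [eval_C] at hfc
    simp [hfc]
  have hlc : ev₀ M.leadingCoeff ≠ 0 := by
    have h1 := congrArg (fun q => q.coeff d) hMmap
    simp only [coeff_map] at h1
    rw [leadingCoeff, hMn, h1]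
    have h2 : f.leadingCoeff ≠ 0 := leadingCoeff_ne_zero.mpr hP₀n
    rw [leadingCoeff, hP₀d] at h2
    exact h2
  -- the root `c` is simple
  have hder : f.derivative.eval c ≠ 0 := by
    intro h
    have h1 : M.derivative.eval₂ ev₀ c = 0 := by
      rw [← eval_map, ← derivative_map, hMmap]; exact h
    have h2 : (M.derivative.map ev₀) = f.derivative := by rw [← derivative_map, hMmap]
    have h3 : f.derivative.natDegree < d := by
      have := natDegree_derivative_lt (p := f) (by omega)
      omega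
    have h4 := hmin _ h1 (by rw [h2]; exact h3)
    rw [h2] at h4
    have := derivative_eq_zero.mp h4
    omega
  -- `f = (X - c) g` with `g c ≠ 0`
  obtain ⟨g, hg⟩ := (dvd_iff_isRoot (a := c) (p := f)).mpr hfc
  have hgc : g.eval c ≠ 0 := by
    intro h
    apply hder
    rw [hg]
    simp [h]
  have htend' : ∀ (P : Polynomial A) (x : ℝ),
      Tendsto (fun s => P.eval₂ (ev s) x) l (𝓝 (P.eval₂ ev₀ x)) := by
    intro P x
    simp only [eval₂_eq_sum, Polynomial.sum]
    exact tendsto_finsetSum _ fun i _ => (htend _).mul tendsto_const_nhds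
  have hroot : ∀ η > 0, ∀ᶠ s in l, ∃ r, |r - c| ≤ η ∧ M.eval₂ (ev s) r = 0 := by
    intro η hη
    have hgpos : ∀ᶠ x in 𝓝 c, 0 < g.eval x * g.eval c := by
      have hcont : Continuous fun x => g.eval x * g.eval c := g.continuous.mul continuous_const
      exact (hcont.tendsto c).eventually (lt_mem_nhds (mul_self_pos.mpr hgc))
    obtain ⟨δ, hδ, hball⟩ := Metric.eventually_nhds_iff.mp hgpos
    set η' := min η (δ / 2) with hη'
    have hη'0 : 0 < η' := lt_min hη (by linarith)
    have h1 : 0 < g.eval (c + η') * g.eval c := hball (by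
      rw [Real.dist_eq, add_sub_cancel_left, abs_of_pos hη'0]
      exact lt_of_le_of_lt (min_le_right _ _) (by linarith))
    have h2 : 0 < g.eval (c - η') * g.eval c := hball (by
      rw [Real.dist_eq, sub_sub_cancel_left, abs_neg, abs_of_pos hη'0]
      exact lt_of_le_of_lt (min_le_right _ _) (by linarith))
    have hgg : 0 < g.eval (c + η') * g.eval (c - η') := by
      have := mul_pos h1 h2
      have hsq : 0 < g.eval c * g.eval c := mul_self_pos.mpr hgc
      nlinarith [this, hsq]
    have hneg : M.eval₂ ev₀ (c - η') * M.eval₂ ev₀ (c + η') < 0 := by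
      rw [← eval_map, ← eval_map, hMmap, hg]
      simp only [eval_mul, eval_sub, eval_X, eval_C, sub_sub_cancel_left, add_sub_cancel_left]
      nlinarith [mul_pos (mul_pos hη'0 hη'0) hgg]
    have hev : ∀ᶠ s in l, M.eval₂ (ev s) (c - η') * M.eval₂ (ev s) (c + η') < 0 :=
      ((htend' M _).mul (htend' M _)).eventually (gt_mem_nhds hneg)
    filter_upwards [hev] with s hs
    have hcont : Continuous fun x => M.eval₂ (ev s) x := by
      simpa only [eval_map] using (M.map (ev s)).continuous
    have hmem : (0 : ℝ) ∈ Set.uIcc (M.eval₂ (ev s) (c - η')) (M.eval₂ (ev s) (c + η')) := by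
      rcases mul_neg_iff.mp hs with ⟨ha, hb⟩ | ⟨ha, hb⟩
      · exact Set.mem_uIcc.mpr (Or.inr ⟨hb.le, ha.le⟩)
      · exact Set.mem_uIcc.mpr (Or.inl ⟨ha.le, hb.le⟩)
    obtain ⟨r, hr, hr0⟩ := intermediate_value_uIcc hcont.continuousOn hmem
    rw [Set.uIcc_of_le (by linarith)] at hr
    refine ⟨r, ?_, hr0⟩
    rw [abs_le]
    constructor <;> linarith [hr.1, hr.2, min_le_left η (δ / 2)]
  have hlcev : ∀ᶠ s in l, ev s M.leadingCoeff ≠ 0 := (htend _).eventually_ne hlc
  have hchoice : ∀ s, ∃ r : ℝ, ev s M.leadingCoeff ≠ 0 →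
      (∃ x, M.eval₂ (ev s) x = 0) →
      M.eval₂ (ev s) r = 0 ∧ ∀ x, M.eval₂ (ev s) x = 0 → |r - c| ≤ |x - c| := by
    intro s
    by_cases h : ev s M.leadingCoeff ≠ 0 ∧ ∃ x, M.eval₂ (ev s) x = 0
    · obtain ⟨hl, x₀, hx₀⟩ := h
      have hne : M.map (ev s) ≠ 0 := by
        intro h0
        apply hl
        have := congrArg (fun q => q.coeff M.natDegree) h0
        simp only [coeff_map, coeff_zero] at this
        exact this
      have hiff : ∀ x, x ∈ (M.map (ev s)).roots.toFinset ↔ M.eval₂ (ev s) x = 0 := by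
        intro x
        rw [Multiset.mem_toFinset, mem_roots hne, IsRoot, eval_map]
      obtain ⟨r, hr, hrmin⟩ := (M.map (ev s)).roots.toFinset.exists_min_image
        (fun x => |x - c|) ⟨x₀, (hiff x₀).mpr hx₀⟩
      exact ⟨r, fun _ _ => ⟨(hiff r).mp hr, fun x hx => hrmin x ((hiff x).mpr hx)⟩⟩
    · exact ⟨c, fun h1 h2 => absurd ⟨h1, h2⟩ h⟩
  choose cs hcs using hchoice
  have hcsroot : ∀ᶠ s in l, M.eval₂ (ev s) (cs s) = 0 := by
    filter_upwards [hlcev, hroot 1 one_pos] with s h1 h2
    exact (hcs s h1 (h2.imp fun r hr => hr.2)).1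
  refine ⟨cs, ?_, fun P hP => ?_⟩
  · rw [Metric.tendsto_nhds]
    intro η hη
    filter_upwards [hlcev, hroot (η / 2) (by linarith)] with s h1 h2
    obtain ⟨r, hr, hr0⟩ := h2
    rw [Real.dist_eq]
    have := (hcs s h1 ⟨r, hr0⟩).2 r hr0
    linarith
  · obtain ⟨k, Q, B, hQB, hB⟩ := pseudo_div M (by omega) P.natDegree P le_rfl
    have hB0 : B.map ev₀ = 0 := by
      refine hmin B ?_ (lt_of_le_of_lt natDegree_map_le (by omega))
      have hM0 : M.eval₂ ev₀ c = 0 := by rw [← eval_map, hMmap]; exact hfc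
      have := congrArg (eval₂ ev₀ c) hQB
      rw [eval₂_mul, eval₂_add, eval₂_mul, hP, hM0, mul_zero, zero_mul, zero_add] at this
      exact this.symm
    filter_upwards [hlcev, hcsroot, hmap0 B hB0] with s h1 h2 h3
    have := congrArg (eval₂ (ev s) (cs s)) hQB
    rw [eval₂_mul, eval₂_pow, eval₂_C, eval₂_add, eval₂_mul, h2, ← eval_map (ev s) (p := B), h3,
      eval_zero, zero_mul, zero_add] at this
    rcases mul_eq_zero.mp this with h | h
    · exact absurd (pow_eq_zero_iff'.mp h).1 h1
    · exact h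

end Step

section Arc

variable {R : Type*} [CommRing R] [Algebra R ℝ]

lemma eval₂_cons {S : Type*} [CommRing S] {n : ℕ} (f : S →+* ℝ) (a : ℝ) (z : Fin n → ℝ)
    (P : MvPolynomial (Fin (n + 1)) S) :
    MvPolynomial.eval₂ f (Fin.cons a z) P =
      (MvPolynomial.finSuccEquiv S n P).eval₂ (MvPolynomial.eval₂Hom f z) a := by
  induction P using MvPolynomial.induction_on with
  | C r => simp [MvPolynomial.finSuccEquiv_apply]
  | add p q hp hq => simp [eval₂_add, hp, hq]
  | mul_X p i hp =>
    rw [MvPolynomial.eval₂_mul, MvPolynomial.eval₂_X, hp, map_mul, eval₂_mul]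
    refine Fin.cases ?_ (fun j => ?_) i
    · simp [MvPolynomial.finSuccEquiv_X_zero]
    · simp [MvPolynomial.finSuccEquiv_X_succ]

/-- If `τ` is transcendental over `R`, then any tuple `z` extends to a family `c s`, continuous at
`τ`, which satisfies near `τ` every relation over `R` satisfied by `(τ, z)`. -/
lemma exists_arc (τ : ℝ) (hτ : Transcendental R τ) :
    ∀ (n : ℕ) (z : Fin n → ℝ), ∃ c : ℝ → Fin n → ℝ, Tendsto c (𝓝 τ) (𝓝 z) ∧
      ∀ P : MvPolynomial (Fin n) (Polynomial R),
        MvPolynomial.eval₂ (aeval τ).toRingHom z P = 0 →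
          ∀ᶠ s in 𝓝 τ, MvPolynomial.eval₂ (aeval s).toRingHom (c s) P = 0 := by
  intro n
  induction n with
  | zero =>
    intro z
    refine ⟨fun _ => z, tendsto_const_nhds, fun P hP => ?_⟩
    obtain ⟨q, rfl⟩ := MvPolynomial.C_surjective (Fin 0) P
    simp only [MvPolynomial.eval₂_C] at hP ⊢
    have hq : q = 0 := by
      by_contra h
      exact hτ ⟨q, h, hP⟩
    simp [hq]
  | succ n ih =>
    intro z
    obtain ⟨c, hc, hrel⟩ := ih (Fin.tail z)
    let ev₀ := MvPolynomial.eval₂Hom (aeval (R := R) τ).toRingHom (Fin.tail z)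
    let ev := fun s => MvPolynomial.eval₂Hom (aeval (R := R) s).toRingHom (c s)
    have htend : ∀ a, Tendsto (fun s => ev s a) (𝓝 τ) (𝓝 (ev₀ a)) := by
      intro a
      induction a using MvPolynomial.induction_on with
      | C q =>
        simp only [ev, ev₀, MvPolynomial.eval₂Hom_C]
        exact (q.continuous_aeval (A := ℝ)).tendsto τ
      | add p q hp hq => simpa [map_add] using hp.add hq
      | mul_X p i hp =>
        simp only [map_mul]
        refine hp.mul ?_
        simp only [ev, ev₀, MvPolynomial.eval₂Hom_X']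
        exact ((continuous_apply i).tendsto _).comp hc
    obtain ⟨cs, hcs, hrel'⟩ := exists_root_extension ev₀ ev (𝓝 τ) htend hrel (z 0)
    refine ⟨fun s => Fin.cons (cs s) (c s), ?_, fun P hP => ?_⟩
    · rw [tendsto_pi_nhds]
      refine Fin.cases ?_ (fun j => ?_)
      · simpa using hcs
      · simpa [Fin.tail, Function.comp_def] using ((continuous_apply j).tendsto _).comp hc
    · rw [← Fin.cons_self_tail z, eval₂_cons] at hP
      filter_upwards [hrel' _ hP] with s hs
      rw [eval₂_cons]
      exact hs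

end Arc

end Vale.Agent.P256.SmoothLift
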