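import Vale.Agent.P256.Defs

/-!
The hyperbolic family `∏ j, (x₀² - (j+1) |y|²) + E(y)` for small forms `E` of degree `2m`.
-/

namespace Vale.Agent.P256.SmoothLift

open MvPolynomial

variable {n m : ℕ}

/-- The squared Euclidean norm. -/
def sqNorm (y : Fin n → ℝ) : ℝ := ∑ i, y i ^ 2

/-- `∏_{j<m} (X₀² - (j+1) ∑_{i>0} X_i²) + E(X₁, …, X_n)`. -/
noncomputable def familyPoly (m : ℕ) (E : MvPolynomial (Fin n) ℝ) :
    MvPolynomial (Fin (n + 1)) ℝ :=
  (∏ j : Fin m, (X 0 ^ 2 - C (((j : ℕ) : ℝ) + 1) * ∑ i : Fin n, X i.succ ^ 2)) +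
    rename Fin.succ E

/-- The distinguished direction. -/
def e₀ (n : ℕ) : Fin (n + 1) → ℝ := Pi.single 0 1

lemma sqNorm_nonneg (y : Fin n → ℝ) : 0 ≤ sqNorm y :=
  Finset.sum_nonneg fun i _ => sq_nonneg (y i)

lemma sqNorm_neg (y : Fin n → ℝ) : sqNorm (-y) = sqNorm y := by
  simp [sqNorm]

lemma eval_neg_of_even {E : MvPolynomial (Fin n) ℝ} (hE : E.IsHomogeneous (2 * m))
    (y : Fin n → ℝ) : eval (-y) E = eval y E := by
  rw [eval_eq', eval_eq']
  refine Finset.sum_congr rfl fun d hd => ?_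
  have hd' : ∑ i, d i = 2 * m := by
    have h := hE (mem_support_iff.mp hd)
    rw [← h, Finsupp.weight_apply, Finsupp.sum_fintype]
    · simp
    · simp
  congr 1
  simp only [Pi.neg_apply]
  rw [Finset.prod_congr rfl fun i _ => neg_pow (y i) (d i), Finset.prod_mul_distrib,
    Finset.prod_pow_eq_pow_sum, hd', pow_mul]
  simp

/-- `|k - j - 1/2| ≥ 1/2` for integers `k`, `j`. -/
lemma half_le (k j : ℕ) : (1 : ℝ) / 2 ≤ |(k : ℝ) - j - 1 / 2| := by
  rcases Nat.lt_or_ge j k with h | h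
  · have : (j : ℝ) + 1 ≤ k := by exact_mod_cast h
    rw [abs_of_pos (by linarith)]; linarith
  · have : (k : ℝ) ≤ j := by exact_mod_cast h
    rw [abs_of_neg (by linarith)]; linarith

/-- The roots of `∏ (w - (j+1) ρ) + E₀` are real, nonnegative and simple. -/
lemma exists_roots (hm : 1 ≤ m) (ρ E₀ : ℝ) :
    ∃ w : Fin m → ℝ, 0 ≤ ρ → |E₀| ≤ (1 / 4) ^ m * ρ ^ m →
      (∀ j, 0 ≤ w j) ∧ (ρ = 0 → ∀ j, w j = 0) ∧
      (0 < ρ → (∀ j, 0 < w j) ∧ Function.Injective w) ∧
      (∀ j : Fin m, (((j : ℕ) : ℝ) + 1 / 2) * ρ ≤ w j ∧ w j ≤ ((((j : ℕ) : ℝ) + 1) + 1 / 2) * ρ) ∧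
      (∏ j : Fin m, (Polynomial.X - Polynomial.C ((((j : ℕ) : ℝ) + 1) * ρ))) + Polynomial.C E₀ =
        ∏ j, (Polynomial.X - Polynomial.C (w j)) := by
  classical
  by_cases hρ : 0 < ρ
  swap
  · refine ⟨0, fun h0 hE => ?_⟩
    have hρ0 : ρ = 0 := le_antisymm (not_lt.mp hρ) h0
    subst hρ0
    rw [zero_pow (by omega), mul_zero] at hE
    have hE0 : E₀ = 0 := abs_eq_zero.mp (le_antisymm hE (abs_nonneg _))
    simp [hE0]
  by_cases hE : |E₀| ≤ (1 / 4) ^ m * ρ ^ m
  swap
  · exact ⟨0, fun _ h => absurd h hE⟩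
  set h : Polynomial ℝ :=
    (∏ j : Fin m, (Polynomial.X - Polynomial.C ((((j : ℕ) : ℝ) + 1) * ρ))) + Polynomial.C E₀
    with hh
  let g : ℕ → ℝ := fun k => ∏ j : Fin m, ((((k : ℝ) + 1 / 2) * ρ) - (((j : ℕ) : ℝ) + 1) * ρ)
  have heval : ∀ k : ℕ, h.eval (((k : ℝ) + 1 / 2) * ρ) = g k + E₀ := by
    intro k; simp [hh, g, Polynomial.eval_prod]
  have hfac : ∀ (k : ℕ) (j : Fin m), ((k : ℝ) + 1 / 2) * ρ - (((j : ℕ) : ℝ) + 1) * ρ =
      ((k : ℝ) - (j : ℕ) - 1 / 2) * ρ := fun k j => by ring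
  have hgabs : ∀ k, |E₀| < |g k| := by
    intro k
    have h1 : (1 / 2 * ρ) ^ m ≤ |g k| := by
      simp only [g, Finset.abs_prod]
      calc (1 / 2 * ρ) ^ m = ∏ _j : Fin m, (1 / 2 * ρ) := by simp
        _ ≤ _ := Finset.prod_le_prod (fun _ _ => by positivity) fun j _ => by
          rw [hfac, abs_mul, abs_of_pos hρ]
          exact mul_le_mul_of_nonneg_right (half_le k j) hρ.le
    have h2 : (1 / 4 * ρ) ^ m < (1 / 2 * ρ) ^ m :=
      pow_lt_pow_left₀ (by linarith) (by positivity) (by omega)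
    rw [mul_pow] at h2
    linarith
  have hroot : ∀ k : Fin m, ∃ r ∈ Set.Ioo ((((k : ℕ) : ℝ) + 1 / 2) * ρ)
      (((((k : ℕ) : ℝ) + 1) + 1 / 2) * ρ), h.eval r = 0 := by
    intro k
    have hgneg : g k * g ((k : ℕ) + 1) < 0 := by
      simp only [g]
      rw [← Finset.prod_mul_distrib, ← Finset.mul_prod_erase Finset.univ _ (Finset.mem_univ k)]
      refine mul_neg_of_neg_of_pos ?_ (Finset.prod_pos fun j hj => ?_)
      · push_cast; nlinarith
      · have hne : (j : ℕ) ≠ k := fun h' => (Finset.mem_erase.mp hj).1 (Fin.ext h')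
        rw [hfac, hfac]
        push_cast
        rcases Nat.lt_or_ge (j : ℕ) k with h' | h'
        · have : ((j : ℕ) : ℝ) + 1 ≤ (k : ℕ) := by exact_mod_cast h'
          exact mul_pos (mul_pos (by linarith) hρ) (mul_pos (by linarith) hρ)
        · have : ((k : ℕ) : ℝ) + 1 ≤ (j : ℕ) := by
            exact_mod_cast (by omega : (k : ℕ) + 1 ≤ (j : ℕ))
          exact mul_pos_of_neg_of_neg (mul_neg_of_neg_of_pos (by linarith) hρ)
            (mul_neg_of_neg_of_pos (by linarith) hρ)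
    have e1 := heval k
    have e2 := heval ((k : ℕ) + 1)
    push_cast at e2
    have b1 := hgabs k
    have b2 := hgabs ((k : ℕ) + 1)
    have hle : (((k : ℕ) : ℝ) + 1 / 2) * ρ ≤ ((((k : ℕ) : ℝ) + 1) + 1 / 2) * ρ := by nlinarith
    have hEl := (abs_le.mp (le_refl |E₀|))
    rcases mul_neg_iff.mp hgneg with ⟨p1, p2⟩ | ⟨p1, p2⟩
    · rw [abs_of_pos p1] at b1
      rw [abs_of_neg p2] at b2
      have hm0 : (0 : ℝ) ∈ Set.Ioo (h.eval (((((k : ℕ) : ℝ) + 1) + 1 / 2) * ρ))
          (h.eval ((((k : ℕ) : ℝ) + 1 / 2) * ρ)) := by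
        rw [e1, e2]; constructor <;> linarith [hEl.1, hEl.2]
      obtain ⟨r, hr, hr0⟩ := intermediate_value_Ioo' hle h.continuous.continuousOn hm0
      exact ⟨r, hr, hr0⟩
    · rw [abs_of_neg p1] at b1
      rw [abs_of_pos p2] at b2
      have hm0 : (0 : ℝ) ∈ Set.Ioo (h.eval ((((k : ℕ) : ℝ) + 1 / 2) * ρ))
          (h.eval (((((k : ℕ) : ℝ) + 1) + 1 / 2) * ρ)) := by
        rw [e1, e2]; constructor <;> linarith [hEl.1, hEl.2]
      obtain ⟨r, hr, hr0⟩ := intermediate_value_Ioo hle h.continuous.continuousOn hm0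
      exact ⟨r, hr, hr0⟩
  choose w hw hw0 using hroot
  have hwpos : ∀ k, 0 < w k := fun k => lt_trans (by positivity) (hw k).1
  have hinj : Function.Injective w := by
    have key : ∀ j k : Fin m, (j : ℕ) < k → w j < w k := by
      intro j k hjk
      have : ((j : ℕ) : ℝ) + 1 ≤ (k : ℕ) := by exact_mod_cast hjk
      nlinarith [(hw j).2, (hw k).1]
    intro j k hjk
    rcases lt_trichotomy (j : ℕ) k with h' | h' | h'
    · exact absurd hjk (key j k h').ne
    · exact Fin.ext h'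
    · exact absurd hjk (key k j h').ne'
  refine ⟨w, fun _ _ => ⟨fun j => (hwpos j).le, fun h0 => absurd h0 hρ.ne',
    fun _ => ⟨hwpos, hinj⟩, fun j => ⟨(hw j).1.le, (hw j).2.le⟩, ?_⟩⟩
  refine Polynomial.eq_of_degree_sub_lt_of_eval_finset_eq (Finset.univ.image w) ?_ ?_
  · rw [Finset.card_image_of_injective _ hinj, Finset.card_univ, Fintype.card_fin]
    rw [show h - ∏ j, (Polynomial.X - Polynomial.C (w j)) =
      (∏ j : Fin m, (Polynomial.X - Polynomial.C ((((j : ℕ) : ℝ) + 1) * ρ)) -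
        ∏ j, (Polynomial.X - Polynomial.C (w j))) + Polynomial.C E₀ by rw [hh]; ring]
    refine lt_of_le_of_lt (Polynomial.degree_add_le _ _) (max_lt ?_ ?_)
    · have hmon : ∀ a : Fin m → ℝ, (∏ j, (Polynomial.X - Polynomial.C (a j))).Monic :=
        fun a => Polynomial.monic_prod_of_monic _ _ fun j _ => Polynomial.monic_X_sub_C _
      have hd : ∀ a : Fin m → ℝ, (∏ j, (Polynomial.X - Polynomial.C (a j))).degree = (m : WithBot ℕ) := by
        intro a
        rw [Polynomial.degree_prod]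
        simp
      refine lt_of_lt_of_eq (Polynomial.degree_sub_lt_left (p := _) ?_ (hmon _).ne_zero ?_) (hd _)
      · rw [hd, hd]
      · rw [(hmon _).leadingCoeff, (hmon _).leadingCoeff]
    · exact lt_of_le_of_lt Polynomial.degree_C_le (by exact_mod_cast hm)
  · intro x hx
    obtain ⟨k, -, rfl⟩ := Finset.mem_image.mp hx
    rw [hw0 k, Polynomial.eval_prod]
    exact (Finset.prod_eq_zero (Finset.mem_univ k) (by simp)).symm

variable (E : MvPolynomial (Fin n) ℝ)

/-- The squares of the roots of `s ↦ familyPoly m E (s, y)`. -/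
noncomputable def rootSq (hm : 1 ≤ m) (y : Fin n → ℝ) : Fin m → ℝ :=
  (exists_roots hm (sqNorm y) (eval y E)).choose

/-- Smallness of `E`. -/
def SmallForm (m : ℕ) (E : MvPolynomial (Fin n) ℝ) : Prop :=
  E.IsHomogeneous (2 * m) ∧ ∀ y, |eval y E| ≤ (1 / 4) ^ m * sqNorm y ^ m

variable {E} (hm : 1 ≤ m) (hE : SmallForm m E)
include hE

lemma rootSq_spec (y : Fin n → ℝ) :
    (∀ j, 0 ≤ rootSq E hm y j) ∧ (sqNorm y = 0 → ∀ j, rootSq E hm y j = 0) ∧
      (0 < sqNorm y → (∀ j, 0 < rootSq E hm y j) ∧ Function.Injective (rootSq E hm y)) ∧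
      (∀ j : Fin m, (((j : ℕ) : ℝ) + 1 / 2) * sqNorm y ≤ rootSq E hm y j ∧
        rootSq E hm y j ≤ ((((j : ℕ) : ℝ) + 1) + 1 / 2) * sqNorm y) ∧
      (∏ j : Fin m, (Polynomial.X - Polynomial.C ((((j : ℕ) : ℝ) + 1) * sqNorm y))) +
        Polynomial.C (eval y E) = ∏ j, (Polynomial.X - Polynomial.C (rootSq E hm y j)) :=
  (exists_roots hm (sqNorm y) (eval y E)).choose_spec (sqNorm_nonneg y) (hE.2 y)

lemma rootSq_neg (y : Fin n → ℝ) : rootSq E hm (-y) = rootSq E hm y := by
  unfold rootSq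
  simp [eval_neg_of_even hE.1, sqNorm_neg]

omit hE in
lemma aeval_succ {R : Type*} [CommRing R] [Algebra ℝ R] (s : R) (y : Fin n → ℝ) :
    aeval (Fin.cons s (fun i => algebraMap ℝ R (y i))) (rename Fin.succ E) =
      algebraMap ℝ R (eval y E) := by
  rw [aeval_rename]
  have h1 : (Fin.cons s (fun i => algebraMap ℝ R (y i)) : Fin (n + 1) → R) ∘ Fin.succ =
      fun i => algebraMap ℝ R (y i) := by funext i; simp
  rw [h1]
  induction E using MvPolynomial.induction_on with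
  | C a => simp
  | add p q hp hq => simp [hp, hq]
  | mul_X p i hp => simp [hp]

lemma aeval_familyPoly {R : Type*} [CommRing R] [Algebra ℝ R] (s : R) (y : Fin n → ℝ) :
    aeval (Fin.cons s (fun i => algebraMap ℝ R (y i))) (familyPoly m E) =
      ∏ j, (s ^ 2 - algebraMap ℝ R (rootSq E hm y j)) := by
  have h := congrArg (Polynomial.aeval (s ^ 2)) (rootSq_spec hm hE y).2.2.2.2
  simp only [map_add, map_prod, map_sub, Polynomial.aeval_X, Polynomial.aeval_C] at h
  rw [familyPoly, map_add, aeval_succ, map_prod, ← h]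
  congr 1
  refine Finset.prod_congr rfl fun j _ => ?_
  simp [sqNorm]

lemma eval_familyPoly (s : ℝ) (y : Fin n → ℝ) :
    eval (Fin.cons s y) (familyPoly m E) = ∏ j, (s ^ 2 - rootSq E hm y j) := by
  have h := aeval_familyPoly hm hE (R := ℝ) s y
  simpa [aeval_eq_eval] using h

lemma familyPoly_isHomogeneous : (familyPoly m E).IsHomogeneous (2 * m) := by
  refine IsHomogeneous.add ?_ hE.1.rename_isHomogeneous
  have h := IsHomogeneous.prod (Finset.univ : Finset (Fin m))
    (fun j => (X 0 ^ 2 - C (((j : ℕ) : ℝ) + 1) * ∑ i : Fin n, X i.succ ^ 2 :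
      MvPolynomial (Fin (n + 1)) ℝ)) (fun _ => 2) (fun j _ => ?_)
  · simpa [mul_comm] using h
  · exact (isHomogeneous_X_pow 0 2).sub
      ((IsHomogeneous.sum _ _ _ fun i _ => isHomogeneous_X_pow i.succ 2).C_mul _)

omit hE in
lemma e₀_eq : e₀ n = Fin.cons 1 0 := by
  funext i
  refine Fin.cases ?_ (fun j => ?_) i <;> simp [e₀, Fin.succ_ne_zero]

lemma isHyperbolicPoly_family (hm : 1 ≤ m) : IsHyperbolicPoly (familyPoly m E) (e₀ n) := by
  refine ⟨⟨2 * m, familyPoly_isHomogeneous hE⟩, ?_, fun x z hz => ?_⟩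
  · rw [e₀_eq, eval_familyPoly hm hE]
    refine Finset.prod_pos fun j _ => ?_
    rw [(rootSq_spec hm hE 0).2.1 (by simp [sqNorm]) j]
    norm_num
  · have harg : (fun i => z * (e₀ n i : ℂ) - (x i : ℂ)) =
        Fin.cons (z - (x 0 : ℂ)) (fun i => algebraMap ℝ ℂ ((-Fin.tail x) i)) := by
      funext i
      refine Fin.cases ?_ (fun j => ?_) i <;> simp [e₀_eq, Fin.tail]
    rw [harg, aeval_familyPoly hm hE, Finset.prod_eq_zero_iff] at hz
    obtain ⟨j, -, hj⟩ := hz
    have hw := (rootSq_spec hm hE (-Fin.tail x)).1 j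
    rw [sub_eq_zero, Complex.ext_iff] at hj
    simp only [sq, Complex.mul_re, Complex.mul_im, Complex.sub_re, Complex.sub_im,
      Complex.ofReal_re, Complex.ofReal_im, Complex.coe_algebraMap, sub_zero] at hj
    obtain ⟨hre, him⟩ := hj
    by_contra hne
    have h0 : z.re - x 0 = 0 := by
      rcases mul_eq_zero.mp (show (z.re - x 0) * z.im = 0 by linarith) with h | h
      · exact h
      · exact absurd h hne
    rw [h0] at hre
    nlinarith [mul_self_pos.mpr hne]

lemma mem_cone_iff (hm : 1 ≤ m) (x : Fin (n + 1) → ℝ) :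
    x ∈ hyperbolicityCone (familyPoly m E) (e₀ n) ↔
      ∀ j, Real.sqrt (rootSq E hm (Fin.tail x) j) ≤ x 0 := by
  have harg : ∀ t : ℝ, t • e₀ n - x = Fin.cons (t - x 0) (-Fin.tail x) := by
    intro t
    funext i
    refine Fin.cases ?_ (fun j => ?_) i <;> simp [e₀_eq, Fin.tail]
  have hroot : ∀ t : ℝ, eval (t • e₀ n - x) (familyPoly m E) = 0 ↔
      ∃ j, (t - x 0) ^ 2 = rootSq E hm (Fin.tail x) j := by
    intro t
    rw [harg, eval_familyPoly hm hE, rootSq_neg hm hE, Finset.prod_eq_zero_iff]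
    simp [sub_eq_zero]
  constructor
  · intro hx j
    have h := hx (x 0 - Real.sqrt (rootSq E hm (Fin.tail x) j)) ((hroot _).mpr ⟨j, by
      rw [sub_sub_cancel_left, neg_sq, Real.sq_sqrt ((rootSq_spec hm hE _).1 j)]⟩)
    linarith
  · intro hx t ht
    obtain ⟨j, hj⟩ := (hroot t).mp ht
    have h1 : |t - x 0| = Real.sqrt (rootSq E hm (Fin.tail x) j) := by
      rw [← hj, Real.sqrt_sq_eq_abs]
    linarith [neg_abs_le (t - x 0), hx j]

omit hE in
lemma derivative_aeval (a : Fin n → ℝ) (p : MvPolynomial (Fin (n + 1)) ℝ) :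
    Polynomial.derivative
        (aeval (Fin.cons Polynomial.X (fun i => Polynomial.C (a i))) p : Polynomial ℝ) =
      aeval (Fin.cons Polynomial.X (fun i => Polynomial.C (a i))) (pderiv 0 p) := by
  induction p using MvPolynomial.induction_on with
  | C c => simp
  | add p q hp hq => simp [hp, hq]
  | mul_X p i hp =>
    refine Fin.cases ?_ (fun j => ?_) i
    · simp [hp]; ring
    · simp [hp, Fin.succ_ne_zero]
      ring

/-- Every nonzero boundary point is a smooth point of the polynomial. -/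
lemma smooth_boundary (hm : 1 ≤ m) (x : Fin (n + 1) → ℝ)
    (hx : x ∈ hyperbolicityCone (familyPoly m E) (e₀ n))
    (hp : eval x (familyPoly m E) = 0) (hx0 : x ≠ 0) :
    ∃ i, eval x (pderiv i (familyPoly m E)) ≠ 0 := by
  classical
  set w := rootSq E hm (Fin.tail x) with hw
  have hroot : ∃ k, x 0 ^ 2 = w k := by
    rw [← Fin.cons_self_tail x, eval_familyPoly hm hE, Finset.prod_eq_zero_iff] at hp
    obtain ⟨k, -, hk⟩ := hp
    exact ⟨k, sub_eq_zero.mp hk⟩
  obtain ⟨k, hk⟩ := hroot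
  have hρ : 0 < sqNorm (Fin.tail x) := by
    rcases (sqNorm_nonneg (Fin.tail x)).lt_or_eq with h | h
    · exact h
    · exfalso
      apply hx0
      have h0 : x 0 = 0 := by
        have := (rootSq_spec hm hE (Fin.tail x)).2.1 h.symm k
        rw [← hw] at this
        rw [this] at hk
        exact pow_eq_zero_iff two_ne_zero |>.mp hk
      funext i
      refine Fin.cases h0 (fun j => ?_) i
      have := (Finset.sum_eq_zero_iff_of_nonneg fun i _ => sq_nonneg (Fin.tail x i)).mp h.symm j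
        (Finset.mem_univ j)
      simpa [Fin.tail] using this
  obtain ⟨hwpos, hwinj⟩ := (rootSq_spec hm hE (Fin.tail x)).2.2.1 hρ
  have hx00 : 0 < x 0 :=
    lt_of_lt_of_le (Real.sqrt_pos.mpr (hwpos k)) ((mem_cone_iff hE hm x).mp hx k)
  refine ⟨0, ?_⟩
  have hq := derivative_aeval (Fin.tail x) (familyPoly m E)
  have hprod := aeval_familyPoly hm hE (R := Polynomial ℝ) Polynomial.X (Fin.tail x)
  simp only [Polynomial.algebraMap_eq] at hprod
  rw [hprod] at hq
  have hev : ∀ p : MvPolynomial (Fin (n + 1)) ℝ, Polynomial.eval (x 0)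
      (aeval (Fin.cons Polynomial.X (fun i => Polynomial.C (Fin.tail x i))) p : Polynomial ℝ) =
      eval x p := by
    intro p
    induction p using MvPolynomial.induction_on with
    | C c => simp
    | add p q hp hq => simp [hp, hq]
    | mul_X p i hp =>
      rw [map_mul, Polynomial.eval_mul, hp, aeval_X, map_mul, eval_X]
      congr 1
      refine Fin.cases ?_ (fun j => ?_) i <;> simp [Fin.tail]
  have hq' := congrArg (Polynomial.eval (x 0)) hq
  rw [hev, Polynomial.derivative_prod_finset, Polynomial.eval_finsetSum] at hq'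
  rw [← hq', Finset.sum_eq_single k]
  · rw [Polynomial.eval_mul, Polynomial.eval_prod]
    refine mul_ne_zero (Finset.prod_ne_zero_iff.mpr fun j hj => ?_) ?_
    · simp only [Polynomial.eval_sub, Polynomial.eval_pow, Polynomial.eval_X, Polynomial.eval_C]
      rw [hk, sub_ne_zero]
      exact fun h => (Finset.mem_erase.mp hj).1 (hwinj h).symm
    · simp [Polynomial.derivative_pow, hx00.ne']
  · intro j _ hj
    rw [Polynomial.eval_mul, Polynomial.eval_prod]
    refine mul_eq_zero.mpr (Or.inl (Finset.prod_eq_zero (Finset.mem_erase.mpr ⟨Ne.symm hj,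
      Finset.mem_univ k⟩) ?_))
    simp [hk, hw]
  · intro h; exact absurd (Finset.mem_univ k) h

end Vale.Agent.P256.SmoothLift
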