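import Vale.Agent.P256.SmoothLift.PsdMin
import Vale.Agent.P256.SmoothLift.Family

/-!
Lower bound for the size of semidefinite lifts of hyperbolicity cones in the family.
-/

namespace Vale.Agent.P256.SmoothLift

open Matrix MvPolynomial
open scoped Cardinal

lemma countable_adjoin {k : ℕ} (f : Fin k → ℝ) :
    Countable (Algebra.adjoin ℚ (Set.range f)) := by
  have : Countable (MvPolynomial (Fin k) ℚ) := by
    rw [← Cardinal.mk_le_aleph0_iff]
    refine (MvPolynomial.cardinalMk_le_max_lift).trans ?_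
    simp [Cardinal.mk_le_aleph0]
  rw [Algebra.adjoin_range_eq_range_aeval]
  exact Function.Surjective.countable (AlgHom.rangeRestrict_surjective _)

/-- There are arbitrarily many algebraically independent reals in any interval `(0, δ)`. -/
lemma exists_indep_small {δ : ℝ} (hδ : 0 < δ) (N : ℕ) :
    ∃ f : Fin N → ℝ, AlgebraicIndependent ℚ f ∧ ∀ i, 0 < f i ∧ f i < δ := by
  induction N with
  | zero =>
    exact ⟨Fin.elim0, algebraicIndependent_empty_type_iff.mpr (algebraMap ℚ ℝ).injective,
      fun i => i.elim0⟩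
  | succ N ih =>
    obtain ⟨f, hf, hfs⟩ := ih
    have := countable_adjoin f
    have hc : Set.Countable {x : ℝ | IsAlgebraic (Algebra.adjoin ℚ (Set.range f)) x} :=
      Algebraic.countable (Algebra.adjoin ℚ (Set.range f)) ℝ
    obtain ⟨t, ht, htr⟩ : ∃ t ∈ Set.Ioo 0 δ,
        t ∉ {x : ℝ | IsAlgebraic (Algebra.adjoin ℚ (Set.range f)) x} := by
      by_contra h
      push Not at h
      exact Cardinal.Real.Ioo_countable_iff.not.mpr (not_le.mpr hδ) (hc.mono h)
    have hg := (hf.option_iff_transcendental t).mpr htr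
    refine ⟨fun i => ((finSuccEquiv N) i).elim t f, hg.comp _ (finSuccEquiv N).injective,
      fun i => ?_⟩
    refine Fin.cases ?_ (fun j => ?_) i
    · simpa using ht
    · simpa using hfs j

/-- The monomial of a multiset of variables. -/
noncomputable def symMonomial {n : ℕ} (s : Multiset (Fin n)) : MvPolynomial (Fin n) ℝ :=
  (s.map X).prod

lemma symMonomial_isHomogeneous {n : ℕ} (s : Multiset (Fin n)) :
    (symMonomial s).IsHomogeneous (Multiset.card s) := by
  induction s using Multiset.induction_on with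
  | empty => simpa [symMonomial] using isHomogeneous_one (Fin n) ℝ
  | cons a s ih =>
    simp only [symMonomial, Multiset.map_cons, Multiset.prod_cons, Multiset.card_cons]
    rw [add_comm]
    exact (isHomogeneous_X ℝ a).mul ih

lemma eval_symMonomial {n : ℕ} (s : Multiset (Fin n)) (y : Fin n → ℝ) :
    eval y (symMonomial s) = (s.map y).prod := by
  induction s using Multiset.induction_on with
  | empty => simp [symMonomial]
  | cons a s ih => simp only [symMonomial] at ih ⊢; simp [ih]

lemma abs_eval_symMonomial {n m : ℕ} (s : Multiset (Fin n)) (hs : Multiset.card s = 2 * m)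
    (y : Fin n → ℝ) : |eval y (symMonomial s)| ≤ sqNorm y ^ m := by
  have key : ∀ t : Multiset (Fin n), (t.map y).prod ^ 2 ≤ sqNorm y ^ Multiset.card t := by
    intro t
    induction t using Multiset.induction_on with
    | empty => simp
    | cons a t ih =>
      rw [Multiset.map_cons, Multiset.prod_cons, Multiset.card_cons, mul_pow, pow_succ' (sqNorm y)]
      refine mul_le_mul ?_ ih (sq_nonneg _) (sqNorm_nonneg y)
      exact Finset.single_le_sum (fun i _ => sq_nonneg (y i)) (Finset.mem_univ a)
  rw [eval_symMonomial]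
  have h := key s
  rw [hs, mul_comm 2 m, pow_mul] at h
  exact abs_le_of_sq_le_sq h (pow_nonneg (sqNorm_nonneg y) m)

/-- If all values at natural points of `∑ ε_s y^s` lie in a `ℚ`-subspace, so do all `ε_s`. -/
lemma coeff_mem_of_values {n k : ℕ} (L : Submodule ℚ ℝ) (ε : Sym (Fin n) k → ℝ)
    (h : ∀ y : Fin n → ℕ, ∑ s : Sym (Fin n) k,
      ε s * (((s : Multiset (Fin n)).map fun i => (y i : ℝ))).prod ∈ L)
    (s₀ : Sym (Fin n) k) : ε s₀ ∈ L := by
  classical
  by_contra hs
  obtain ⟨f, hf, hfL⟩ := Submodule.exists_dual_map_eq_bot_of_notMem hs inferInstance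
  set g : MvPolynomial (Fin n) ℚ :=
    ∑ s : Sym (Fin n) k, C (f (ε s)) * ((s : Multiset (Fin n)).map X).prod with hg
  have hzero : g = 0 := by
    apply MvPolynomial.funext_set (fun _ => Set.range (Nat.cast : ℕ → ℚ))
      (fun _ => Set.infinite_range_of_injective Nat.cast_injective)
    intro x hx
    choose y hy using fun i => hx i (Set.mem_univ i)
    have hy' : x = fun i => (y i : ℚ) := funext fun i => (hy i).symm
    subst hy'
    have hmem := h y
    have h0 : f (∑ s : Sym (Fin n) k,
        ε s * (((s : Multiset (Fin n)).map fun i => (y i : ℝ))).prod) = 0 := by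
      have := Submodule.mem_map_of_mem (f := f) hmem
      rw [hfL] at this
      exact (Submodule.mem_bot ℚ).mp this
    rw [map_sum] at h0
    rw [map_zero, hg, map_sum, ← h0]
    refine Finset.sum_congr rfl fun s _ => ?_
    have hq : ∀ t : Multiset (Fin n), eval (fun i => (y i : ℚ)) (t.map X).prod =
        ((t.map y).prod : ℕ) ∧ (t.map fun i => (y i : ℝ)).prod = ((t.map y).prod : ℕ) := by
      intro t
      induction t using Multiset.induction_on with
      | empty => simp
      | cons a t ih =>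
        refine ⟨?_, ?_⟩
        · rw [Multiset.map_cons, Multiset.prod_cons, map_mul, eval_X, ih.1, Multiset.map_cons,
            Multiset.prod_cons, Nat.cast_mul]
        · rw [Multiset.map_cons, Multiset.prod_cons, ih.2, Multiset.map_cons, Multiset.prod_cons,
            Nat.cast_mul]
    rw [map_mul, eval_C, (hq _).1, (hq _).2, mul_comm (ε s), ← nsmul_eq_mul, map_nsmul,
      nsmul_eq_mul, mul_comm]
  have hmon : ∀ t : Multiset (Fin n),
      ((t.map X).prod : MvPolynomial (Fin n) ℚ) = monomial (Multiset.toFinsupp t) 1 := by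
    intro t
    induction t using Multiset.induction_on with
    | empty => simp
    | cons a t ih =>
      rw [Multiset.map_cons, Multiset.prod_cons, ih, ← Multiset.singleton_add, map_add,
        Multiset.toFinsupp_singleton, X, monomial_mul, one_mul]
  have hc := congrArg (coeff (Multiset.toFinsupp (s₀ : Multiset (Fin n)))) hzero
  rw [hg, coeff_sum, coeff_zero, Finset.sum_eq_single s₀] at hc
  · rw [hmon, coeff_C_mul, coeff_monomial, if_pos rfl, mul_one] at hc
    exact hf hc
  · intro s _ hne
    rw [hmon, coeff_C_mul, coeff_monomial, if_neg, mul_zero]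
    exact fun he => hne (Sym.coe_injective (Multiset.toFinsupp.injective he))
  · intro h; exact absurd (Finset.mem_univ s₀) h

/-- The form with the given coefficients. -/
noncomputable def formOf {n m : ℕ} (ε : Sym (Fin n) (2 * m) → ℝ) : MvPolynomial (Fin n) ℝ :=
  ∑ s : Sym (Fin n) (2 * m), C (ε s) * symMonomial (s : Multiset (Fin n))

/-- The allowed size of the coefficients. -/
noncomputable def boxRadius (n m : ℕ) : ℝ :=
  (1 / 4) ^ m / (Fintype.card (Sym (Fin n) (2 * m)) + 1)

lemma boxRadius_pos (n m : ℕ) : 0 < boxRadius n m := by unfold boxRadius; positivity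

lemma eval_formOf {n m : ℕ} (ε : Sym (Fin n) (2 * m) → ℝ) (y : Fin n → ℝ) :
    eval y (formOf ε) = ∑ s : Sym (Fin n) (2 * m), ε s * ((s : Multiset (Fin n)).map y).prod := by
  simp [formOf, eval_symMonomial]

lemma smallForm_formOf {n m : ℕ} (ε : Sym (Fin n) (2 * m) → ℝ)
    (hε : ∀ s, |ε s| ≤ boxRadius n m) : SmallForm m (formOf ε) := by
  refine ⟨IsHomogeneous.sum _ _ _ fun s _ => ?_, fun y => ?_⟩
  · simpa using (symMonomial_isHomogeneous (s : Multiset (Fin n))).C_mul (ε s)
  · rw [eval_formOf]
    refine (Finset.abs_sum_le_sum_abs _ _).trans ?_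
    calc ∑ s : Sym (Fin n) (2 * m), |ε s * ((s : Multiset (Fin n)).map y).prod|
        ≤ ∑ _s : Sym (Fin n) (2 * m), boxRadius n m * sqNorm y ^ m := by
          refine Finset.sum_le_sum fun s _ => ?_
          rw [abs_mul, ← eval_symMonomial]
          exact mul_le_mul (hε s) (abs_eval_symMonomial _ (by simp) y) (abs_nonneg _)
            (boxRadius_pos n m).le
      _ ≤ _ := by
          rw [Finset.sum_const, Finset.card_univ, nsmul_eq_mul, ← mul_assoc]
          refine mul_le_mul_of_nonneg_right ?_ (pow_nonneg (sqNorm_nonneg y) m)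
          rw [boxRadius, mul_div_assoc', div_le_iff₀ (by positivity)]
          nlinarith [pow_pos (show (0 : ℝ) < 1 / 4 by norm_num) m]

/-- Cones of the family with algebraically independent coefficients need semidefinite lifts of
size `r` with `multichoose n (2m) ≤ (r² + n + 2) r²`. -/
theorem lift_size_bound (n m : ℕ) (hm : 1 ≤ m) (ε : Sym (Fin n) (2 * m) → ℝ)
    (hε : AlgebraicIndependent ℚ ε) (hbox : ∀ s, |ε s| ≤ boxRadius n m)
    (a r : ℕ) (A₀ : Matrix (Fin r) (Fin r) ℝ) (A : Fin (n + 1) → Matrix (Fin r) (Fin r) ℝ)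
    (B : Fin a → Matrix (Fin r) (Fin r) ℝ) (hA₀ : A₀.IsSymm) (hA : ∀ i, (A i).IsSymm)
    (hB : ∀ j, (B j).IsSymm)
    (hlift : hyperbolicityCone (familyPoly m (formOf ε)) (e₀ n) =
      {x | ∃ u : Fin a → ℝ, (A₀ + ∑ i, x i • A i + ∑ j, u j • B j).PosSemidef}) :
    Nat.multichoose n (2 * m) ≤ (r * r + n + 2) * (r * r) := by
  classical
  have hcard : Fintype.card (Sym (Fin n) (2 * m)) = Nat.multichoose n (2 * m) :=
    Sym.card_sym_fin_eq_multichoose n (2 * m)
  set N := Fintype.card (Sym (Fin n) (2 * m)) with hN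
  set E := formOf ε with hEdef
  have hEeval : ∀ y, eval y E =
      ∑ s : Sym (Fin n) (2 * m), ε s * ((s : Multiset (Fin n)).map y).prod := eval_formOf ε
  have hE : SmallForm m E := smallForm_formOf ε hbox
  -- replace the lifting matrices by a basis of their span
  set W : Submodule ℝ (Matrix (Fin r) (Fin r) ℝ) := Submodule.span ℝ (Set.range B) with hW
  set b := Module.finrank ℝ W with hb
  have hbr : b ≤ r * r := by
    refine (Submodule.finrank_le W).trans ?_
    rw [Module.finrank_matrix]
    simp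
  let β := Module.finBasis ℝ W
  let D : Fin b → Matrix (Fin r) (Fin r) ℝ := fun k => (β k : Matrix (Fin r) (Fin r) ℝ)
  have hDsymm : ∀ k, (D k).IsSymm := by
    intro k
    obtain ⟨c, hc⟩ := (Submodule.mem_span_range_iff_exists_fun ℝ).mp (β k).2
    change (β k : Matrix (Fin r) (Fin r) ℝ)ᵀ = _
    change _ = (β k : Matrix (Fin r) (Fin r) ℝ)
    rw [← hc]
    simp [Matrix.transpose_sum, (hB _).eq]
  have hspan : ∀ M : Matrix (Fin r) (Fin r) ℝ, (∃ u : Fin a → ℝ, ∑ j, u j • B j = M) ↔
      ∃ v : Fin b → ℝ, ∑ k, v k • D k = M := by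
    intro M
    rw [← Submodule.mem_span_range_iff_exists_fun ℝ, ← hW]
    constructor
    · intro hM
      refine ⟨fun k => β.repr ⟨M, hM⟩ k, ?_⟩
      have := congrArg (Subtype.val) (β.sum_repr ⟨M, hM⟩)
      rw [Submodule.coe_sum] at this
      exact this
    · rintro ⟨v, rfl⟩
      exact Submodule.sum_mem _ fun k _ => Submodule.smul_mem _ _ (β k).2
  -- the entries
  let ent : (Option (Fin (n + 1) ⊕ Fin b)) × Fin r × Fin r → ℝ := fun p =>
    match p.1 with
    | none => A₀ p.2.1 p.2.2
    | some (Sum.inl i) => A i p.2.1 p.2.2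
    | some (Sum.inr k) => D k p.2.1 p.2.2
  set S : Set ℝ := Set.range ent with hS
  let T : Subalgebra (Algebra.adjoin ℚ S) ℝ :=
    Subalgebra.algebraicClosure (Algebra.adjoin ℚ S) ℝ
  have hent : ∀ p, ent p ∈ Algebra.adjoin ℚ S := fun p => Algebra.subset_adjoin ⟨p, rfl⟩
  have hval : ∀ y : Fin n → ℕ, eval (fun i => (y i : ℝ)) E ∈ T := by
    intro y
    set yv : Fin n → ℝ := fun i => (y i : ℝ) with hyv
    let P₀ : Matrix (Fin r) (Fin r) (Algebra.adjoin ℚ S) := Matrix.of fun i k =>
      (⟨A₀ i k, hent (none, i, k)⟩ : Algebra.adjoin ℚ S) +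
        ∑ l, (y l : Algebra.adjoin ℚ S) * ⟨A l.succ i k, hent (some (Sum.inl l.succ), i, k)⟩
    let P₁ : Matrix (Fin r) (Fin r) (Algebra.adjoin ℚ S) := Matrix.of fun i k =>
      ⟨A 0 i k, hent (some (Sum.inl 0), i, k)⟩
    let D' : Fin b → Matrix (Fin r) (Fin r) (Algebra.adjoin ℚ S) := fun l => Matrix.of fun i k =>
      ⟨D l i k, hent (some (Sum.inr l), i, k)⟩
    have hP₀ : P₀.map (algebraMap (Algebra.adjoin ℚ S) ℝ) = A₀ + ∑ l, yv l • A l.succ := by
      ext i k
      simp [P₀, hyv, Matrix.sum_apply]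
    have hP₁ : P₁.map (algebraMap (Algebra.adjoin ℚ S) ℝ) = A 0 := by
      ext i k; simp [P₁]
    have hD' : ∀ l, (D' l).map (algebraMap (Algebra.adjoin ℚ S) ℝ) = D l := by
      intro l; ext i k; simp [D']
    have huniv : (Finset.univ : Finset (Fin m)).Nonempty := ⟨⟨0, hm⟩, Finset.mem_univ _⟩
    set w := rootSq E hm yv with hw
    set φ := Finset.univ.sup' huniv fun j => Real.sqrt (w j) with hφ
    have hslice : ∀ s : ℝ, Fin.cons s yv ∈ hyperbolicityCone (familyPoly m E) (e₀ n) ↔ φ ≤ s := by
      intro s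
      rw [mem_cone_iff hE hm, hφ, Finset.sup'_le_iff]
      simp [hw]
    have hleast : IsLeast {s : ℝ | ∃ u : Fin b → ℝ, (P₀.map (algebraMap (Algebra.adjoin ℚ S) ℝ) +
        s • P₁.map (algebraMap (Algebra.adjoin ℚ S) ℝ) +
          ∑ j, u j • (D' j).map (algebraMap (Algebra.adjoin ℚ S) ℝ)).PosSemidef} φ := by
      have hset : ∀ s : ℝ, (∃ u : Fin b → ℝ, (P₀.map (algebraMap (Algebra.adjoin ℚ S) ℝ) +
          s • P₁.map (algebraMap (Algebra.adjoin ℚ S) ℝ) +
            ∑ j, u j • (D' j).map (algebraMap (Algebra.adjoin ℚ S) ℝ)).PosSemidef) ↔ φ ≤ s := by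
        intro s
        rw [← hslice, hlift, hP₀, hP₁]
        simp only [hD', Set.mem_ofPred, Fin.sum_univ_succ, Fin.cons_zero, Fin.cons_succ]
        rw [show A₀ + ∑ l, yv l • A l.succ + s • A 0 = A₀ + (s • A 0 + ∑ l, yv l • A l.succ) by
          abel]
        constructor
        · rintro ⟨u, hu⟩
          obtain ⟨v, hv⟩ := (hspan _).mpr ⟨u, rfl⟩
          exact ⟨v, by rwa [hv]⟩
        · rintro ⟨u, hu⟩
          obtain ⟨v, hv⟩ := (hspan _).mp ⟨u, rfl⟩
          exact ⟨v, by rwa [hv]⟩
      exact ⟨(hset φ).mpr le_rfl, fun s hs => (hset s).mp hs⟩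
    have halg : IsAlgebraic (Algebra.adjoin ℚ S) φ := by
      refine isAlgebraic_of_isLeast P₀ P₁ D' ?_ ?_ ?_ hleast
      · rw [hP₀]
        change (A₀ + ∑ l, yv l • A l.succ)ᵀ = _
        simp [Matrix.transpose_sum, (hA _).eq, hA₀.eq]
      · rw [hP₁]; exact hA 0
      · intro l; rw [hD']; exact hDsymm l
    have hφT : φ ∈ T := by
      rw [Subalgebra.mem_algebraicClosure]; exact halg
    obtain ⟨j₀, -, hj₀⟩ := Finset.exists_mem_eq_sup' huniv fun j => Real.sqrt (w j)
    have hzero : eval (Fin.cons φ yv) (familyPoly m E) = 0 := by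
      rw [eval_familyPoly hm hE, Finset.prod_eq_zero_iff]
      refine ⟨j₀, Finset.mem_univ _, ?_⟩
      rw [hφ, hj₀, Real.sq_sqrt ((rootSq_spec hm hE yv).1 j₀)]
      simp
    have hsolve : eval yv E =
        -∏ j : Fin m, (φ ^ 2 - (((j : ℕ) : ℝ) + 1) * ∑ i : Fin n, yv i ^ 2) := by
      rw [familyPoly, map_add, eval_rename] at hzero
      have hcomp : (Fin.cons φ yv : Fin (n + 1) → ℝ) ∘ Fin.succ = yv := by funext i; simp
      rw [hcomp] at hzero
      simp only [map_prod, map_sub, map_pow, map_mul, map_sum, eval_C, eval_X, Fin.cons_zero,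
        Fin.cons_succ] at hzero
      linarith
    rw [hsolve]
    refine neg_mem (prod_mem fun j _ => sub_mem (pow_mem hφT 2) (mul_mem
      (add_mem (natCast_mem T _) (one_mem T)) (sum_mem fun i _ => pow_mem (natCast_mem T _) 2)))
  have hmem : ∀ s, ε s ∈ T :=
    coeff_mem_of_values (T.restrictScalars ℚ).toSubmodule ε (fun y => by
      have := hval y
      rw [hEeval] at this
      exact this)
  -- count
  have hfinS : S.Finite := Set.finite_range ent
  have hindep : (AlgebraicIndependent.matroid ℚ ℝ).Indep (Set.range ε) :=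
    AlgebraicIndependent.matroid_indep_iff.mpr (AlgebraicIndependent.to_subtype_range hε)
  have hsub : Set.range ε ⊆ (AlgebraicIndependent.matroid ℚ ℝ).closure S := by
    rw [AlgebraicIndependent.matroid_closure_eq]
    rintro _ ⟨s, rfl⟩
    exact hmem s
  have h1 : (Set.range ε).encard ≤ S.encard :=
    (hindep.encard_le_eRk_of_subset hsub).trans
      (le_trans (le_of_eq ((AlgebraicIndependent.matroid ℚ ℝ).eRk_closure_eq S))
        ((AlgebraicIndependent.matroid ℚ ℝ).eRk_le_encard S))
  rw [← (Set.finite_range ε).cast_ncard_eq, ← hfinS.cast_ncard_eq, Nat.cast_le] at h1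
  have h2 : (Set.range ε).ncard = N := by
    rw [← Nat.card_coe_set_eq, Nat.card_range_of_injective hε.injective, Nat.card_eq_fintype_card]
  have h3 : S.ncard ≤ (1 + (n + 1 + b)) * (r * r) := by
    rw [← Nat.card_coe_set_eq, hS]
    refine (Finite.card_range_le ent).trans (le_of_eq ?_)
    simp only [Nat.card_eq_fintype_card, Fintype.card_prod, Fintype.card_option, Fintype.card_sum,
      Fintype.card_fin]
    ring
  rw [← hcard]
  have h4 : (1 + (n + 1 + b)) * (r * r) ≤ (r * r + n + 2) * (r * r) :=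
    Nat.mul_le_mul_right _ (by omega)
  omega

end Vale.Agent.P256.SmoothLift
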