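import Vale.Agent.P256.SmoothLift.Normalize
import Vale.Agent.P256.Shadow

/-!
Limits of convex cones with semidefinite lifts of bounded size have lifts of the same size.
-/

namespace Vale.Agent.P256.SmoothLift

open Matrix Filter Topology

variable {N : ℕ}

/-- An inhomogeneous lift of size `r` of a cone gives a linear one of size `r + 1`. -/
lemma isLift_of_lmi {K : Set (Fin N → ℝ)} {e : Fin N → ℝ} {ρ : ℝ} (hK : GoodCone K e ρ) {a r : ℕ}
    {A₀ : Mat r} {A : Fin N → Mat r} {B : Fin a → Mat r} (h₀ : A₀.IsSymm)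
    (hA : ∀ i, (A i).IsSymm) (hB : ∀ j, (B j).IsSymm)
    (hlift : K = {x | ∃ u : Fin a → ℝ, (A₀ + ∑ i, x i • A i + ∑ j, u j • B j).PosSemidef}) :
    ∃ G : Submodule ℝ ((Fin N → ℝ) × Mat (r + 1)), IsLift G K := by
  let L : ℝ × (Fin N → ℝ) × (Fin a → ℝ) → Mat r := fun z =>
    z.1 • A₀ + ∑ i, z.2.1 i • A i + ∑ j, z.2.2 j • B j
  let Φ : (ℝ × (Fin N → ℝ) × (Fin a → ℝ)) →ₗ[ℝ] ((Fin N → ℝ) × Mat (r + 1)) :=
    { toFun := fun z => (z.2.1, Matrix.reindex finSumFinEquiv finSumFinEquiv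
        (fromBlocks (L z) 0 0 (diagonal fun _ : Fin 1 => z.1)))
      map_add' := fun y z => by
        have h : L (y + z) = L y + L z := by
          simp only [L, Prod.fst_add, Prod.snd_add, Pi.add_apply, add_smul, Finset.sum_add_distrib]
          abel
        refine Prod.ext rfl ?_
        simp only [h, Prod.fst_add, Prod.mk_add_mk]
        ext i j
        simp only [Matrix.reindex_apply, submatrix_apply, Matrix.add_apply]
        rcases finSumFinEquiv.symm i with i' | i' <;> rcases finSumFinEquiv.symm j with j' | j' <;>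
          simp [diagonal, ite_add_ite]
      map_smul' := fun c z => by
        have h : L (c • z) = c • L z := by
          simp [L, Finset.smul_sum, smul_smul]
        refine Prod.ext rfl ?_
        simp only [h, Prod.smul_fst, RingHom.id_apply, Prod.smul_snd]
        ext i j
        simp only [Matrix.reindex_apply, submatrix_apply, Matrix.smul_apply]
        rcases finSumFinEquiv.symm i with i' | i' <;> rcases finSumFinEquiv.symm j with j' | j' <;>
          simp [diagonal] }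
  have hpsd : ∀ z, ((Φ z).2).PosSemidef ↔ (L z).PosSemidef ∧ 0 ≤ z.1 := by
    intro z
    change (Matrix.reindex finSumFinEquiv finSumFinEquiv
        (fromBlocks (L z) 0 0 (diagonal fun _ : Fin 1 => z.1))).PosSemidef ↔ _
    rw [Matrix.reindex_apply, posSemidef_submatrix_equiv, posSemidef_fromBlocks_iff,
      posSemidef_diagonal_iff]
    simp
  refine ⟨LinearMap.range Φ, ?_, fun x => ?_⟩
  · rintro _ ⟨z, rfl⟩
    have hL : (L z).IsSymm := by
      change (L z)ᵀ = _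
      simp [L, Matrix.transpose_sum, h₀.eq, (hA _).eq, (hB _).eq]
    exact (hL.fromBlocks (by simp) (isSymm_diagonal _)).submatrix _
  · constructor
    · intro hx
      rw [hlift] at hx
      obtain ⟨u, hu⟩ := hx
      exact ⟨(Φ (1, x, u)).2, ⟨(1, x, u), Prod.ext rfl rfl⟩,
        (hpsd _).mpr ⟨by simpa [L] using hu, zero_le_one⟩⟩
    · rintro ⟨M, ⟨⟨l, x', u⟩, he⟩, hp⟩
      have hx' : x' = x := congrArg Prod.fst he
      subst hx'
      have hM : M = (Φ (l, x', u)).2 := (congrArg Prod.snd he).symm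
      rw [hM, hpsd] at hp
      obtain ⟨hL, hl⟩ := hp
      simp only [L] at hL hl
      rcases hl.lt_or_eq with hl | hl
      · have hmem : l⁻¹ • x' ∈ K := by
          rw [hlift]
          refine ⟨l⁻¹ • u, ?_⟩
          have := hL.smul (inv_nonneg.mpr hl.le)
          simpa [smul_add, Finset.smul_sum, smul_smul, hl.ne'] using this
        have := hK.smul l hl.le _ hmem
        rwa [smul_smul, mul_inv_cancel₀ hl.ne', one_smul] at this
      · subst hl
        have h0 : (0 : Fin N → ℝ) ∈ K := by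
          simpa using hK.smul 0 le_rfl e (e_mem hK)
        rw [hlift] at h0
        obtain ⟨w, hw⟩ := h0
        rw [hlift]
        refine ⟨w + u, ?_⟩
        have := hw.add hL
        simp only [Pi.zero_apply, zero_smul, Finset.sum_const_zero, add_zero, zero_add] at this
        simp only [Pi.add_apply, add_smul, Finset.sum_add_distrib]
        convert this using 1
        abel

/-- The limit theorem. -/
theorem lift_limit {K : ℕ → Set (Fin N → ℝ)} {K' : Set (Fin N → ℝ)} {e : Fin N → ℝ} {ρ : ℝ}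
    {r : ℕ} (hK : ∀ k, GoodCone (K k) e ρ)
    (hlift : ∀ k, ∃ r' ≤ r, ∃ G : Submodule ℝ ((Fin N → ℝ) × Mat r'), IsLift G (K k))
    (hout : ∀ (l : Filter ℕ) (_ : l.NeBot) (_ : l ≤ atTop) (xs : ℕ → Fin N → ℝ) x,
      (∀ᶠ k in l, xs k ∈ K k) → Tendsto xs l (𝓝 x) → x ∈ K')
    (hin : ∀ x ∈ K', ∃ xs : ℕ → Fin N → ℝ, (∀ᶠ k in atTop, xs k ∈ K k) ∧
      Tendsto xs atTop (𝓝 x)) :
    ∃ s ≤ r, ∃ G : Submodule ℝ ((Fin N → ℝ) × Mat s), IsLift G K' := by
  classical
  let U : Ultrafilter ℕ := Ultrafilter.of atTop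
  have hU : (U : Filter ℕ) ≤ atTop := Ultrafilter.of_le _
  have hnorm : ∀ k, ∃ s ≤ r, ∃ H : Submodule ℝ ((Fin N → ℝ) × Mat s), IsLift H (K k) ∧
      (e, 1) ∈ H ∧ ∀ x M, (x, M) ∈ H → M.PosSemidef → M.trace * ρ ≤ s * (‖x‖ + ρ) := fun k => by
    obtain ⟨r', hr', G, hG⟩ := hlift k
    obtain ⟨s, hs, H⟩ := exists_normalized (hK k) hG
    exact ⟨s, hs.trans hr', H⟩
  obtain ⟨s, hsr, hs⟩ : ∃ s ≤ r, ∀ᶠ k in (U : Filter ℕ),
      ∃ H : Submodule ℝ ((Fin N → ℝ) × Mat s), IsLift H (K k) ∧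
      (e, 1) ∈ H ∧ ∀ x M, (x, M) ∈ H → M.PosSemidef → M.trace * ρ ≤ s * (‖x‖ + ρ) := by
    by_contra hno
    push Not at hno
    have h : ∀ᶠ k in (U : Filter ℕ), ∀ s ∈ Finset.range (r + 1),
        ¬∃ H : Submodule ℝ ((Fin N → ℝ) × Mat s), IsLift H (K k) ∧
        (e, 1) ∈ H ∧ ∀ x M, (x, M) ∈ H → M.PosSemidef → M.trace * ρ ≤ s * (‖x‖ + ρ) :=
      (Finset.range (r + 1)).eventually_all.mpr fun s hs =>
        Eventually.mono (hno s (Nat.lt_succ_iff.mp (Finset.mem_range.mp hs)))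
          fun k hk ⟨H, h1, h2, h3⟩ => by
            obtain ⟨x, M, h4, h5, h6⟩ := hk H h1 h2
            exact absurd (h3 x M h4 h5) (not_le.mpr h6)
    obtain ⟨k, hk⟩ := h.exists
    obtain ⟨s, hs, hH⟩ := hnorm k
    exact hk s (Finset.mem_range.mpr (Nat.lt_succ_of_le hs)) hH
  let H : ℕ → Submodule ℝ ((Fin N → ℝ) × Mat s) := fun k =>
    if h : ∃ H : Submodule ℝ ((Fin N → ℝ) × Mat s), IsLift H (K k) ∧
      (e, 1) ∈ H ∧ ∀ x M, (x, M) ∈ H → M.PosSemidef → M.trace * ρ ≤ s * (‖x‖ + ρ)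
    then h.choose else ⊥
  have hH : ∀ᶠ k in (U : Filter ℕ), IsLift (H k) (K k) ∧ (e, 1) ∈ H k ∧
      ∀ x M, (x, M) ∈ H k → M.PosSemidef → M.trace * ρ ≤ s * (‖x‖ + ρ) := by
    filter_upwards [hs] with k hk
    simp only [H, dif_pos hk]
    exact hk.choose_spec
  -- the limit subspace
  let G : Submodule ℝ ((Fin N → ℝ) × Mat s) :=
    { carrier := {z | ∃ zs : ℕ → (Fin N → ℝ) × Mat s,
        (∀ᶠ k in (U : Filter ℕ), zs k ∈ H k) ∧ Tendsto zs U (𝓝 z)}
      add_mem' := by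
        rintro a b ⟨as, ha, ha'⟩ ⟨bs, hb, hb'⟩
        exact ⟨fun k => as k + bs k, (ha.and hb).mono fun k h => (H k).add_mem h.1 h.2,
          ha'.add hb'⟩
      zero_mem' := ⟨fun _ => 0, Eventually.of_forall fun k => (H k).zero_mem, tendsto_const_nhds⟩
      smul_mem' := by
        rintro c a ⟨as, ha, ha'⟩
        exact ⟨fun k => c • as k, ha.mono fun k h => (H k).smul_mem c h, ha'.const_smul c⟩ }
  refine ⟨s, hsr, G, ?_, fun x => ⟨fun hx => ?_, ?_⟩⟩
  · rintro z ⟨zs, hzs, hlim⟩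
    refine (isClosed_eq continuous_id.matrix_transpose continuous_id).mem_of_tendsto
      ((continuous_snd.tendsto z).comp hlim) ?_
    filter_upwards [hzs, hH] with k hk hk'
    exact (hk'.1.1 _ hk).eq
  · obtain ⟨xs, hxs, hlim⟩ := hin x hx
    have hlimU : Tendsto xs U (𝓝 x) := hlim.mono_left hU
    have hev : ∀ᶠ k in (U : Filter ℕ), ∃ M, (xs k, M) ∈ H k ∧ M.PosSemidef := by
      filter_upwards [hU hxs, hH] with k hk hk'
      exact (hk'.1.2 _).mp hk
    let Ms : ℕ → Mat s := fun k => if h : ∃ M, (xs k, M) ∈ H k ∧ M.PosSemidef then h.choose else 0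
    have hMs : ∀ᶠ k in (U : Filter ℕ), (xs k, Ms k) ∈ H k ∧ (Ms k).PosSemidef := by
      filter_upwards [hev] with k hk
      simp only [Ms, dif_pos hk]
      exact hk.choose_spec
    set b := (s : ℝ) * (‖x‖ + 1 + ρ) / ρ with hb
    have hρ : 0 < ρ := (hK 0).pos
    have hbox : IsCompact {M : Mat s | ∀ i j, M i j ∈ Set.Icc (-b) b} := by
      have : {M : Mat s | ∀ i j, M i j ∈ Set.Icc (-b) b} =
          Set.pi Set.univ (fun _ => Set.pi Set.univ fun _ => Set.Icc (-b) b) := by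
        ext M; exact ⟨fun h i _ j _ => h i j, fun h i j => h i trivial j trivial⟩
      rw [this]
      exact isCompact_univ_pi fun _ => isCompact_univ_pi fun _ => isCompact_Icc
    have hmem : ∀ᶠ k in (U : Filter ℕ), Ms k ∈ {M : Mat s | ∀ i j, M i j ∈ Set.Icc (-b) b} := by
      filter_upwards [hMs, hH, hlimU.norm.eventually (gt_mem_nhds (lt_add_one ‖x‖))] with k hk hk' hn
      intro i j
      have h1 := abs_entry_le_trace hk.2 i j
      have h2 := hk'.2.2 _ _ hk.1 hk.2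
      have h3 : (Ms k).trace ≤ b := by
        rw [hb, le_div_iff₀ hρ]
        refine h2.trans (mul_le_mul_of_nonneg_left ?_ (Nat.cast_nonneg s))
        linarith
      exact abs_le.mp (h1.trans h3)
    obtain ⟨M, -, hM⟩ := hbox.ultrafilter_le_nhds (U.map Ms) (by
      rw [le_principal_iff]; exact hmem)
    have hMt : Tendsto Ms U (𝓝 M) := hM
    refine ⟨M, ⟨fun k => (xs k, Ms k), hMs.mono fun k h => h.1, hlimU.prodMk_nhds hMt⟩,
      isClosed_psd.mem_of_tendsto hMt (hMs.mono fun k h => h.2)⟩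
  · rintro ⟨M, ⟨zs, hzs, hlim⟩, hMp⟩
    let η : ℕ → ℝ := fun k => ∑ i, ∑ j, |((zs k).2 - M) i j|
    have hη : Tendsto η U (𝓝 0) := by
      have hc : Continuous fun z : (Fin N → ℝ) × Mat s => ∑ i, ∑ j, |(z.2 - M) i j| :=
        continuous_finsetSum _ fun i _ => continuous_finsetSum _ fun j _ =>
          ((continuous_snd.sub continuous_const).matrix_elem i j).abs
      simpa [η, Function.comp_def] using (hc.tendsto (x, M)).comp hlim
    refine hout U U.neBot hU (fun k => (zs k).1 + η k • e) x ?_ ?_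
    · filter_upwards [hzs, hH] with k hk hk'
      rw [hk'.1.2]
      refine ⟨(zs k).2 + η k • 1, (H k).add_mem hk ((H k).smul_mem (η k) hk'.2.1), ?_⟩
      exact psd_shift hMp (hk'.1.1 _ hk) le_rfl
    · simpa using ((continuous_fst.tendsto (x, M)).comp hlim).add (hη.smul_const e)

/-- A linear lift is a linear matrix inequality. -/
lemma lmi_of_isLift {K : Set (Fin N → ℝ)} {e : Fin N → ℝ} {ρ : ℝ} (hK : GoodCone K e ρ) {r : ℕ}
    {G : Submodule ℝ ((Fin N → ℝ) × Mat r)} (hG : IsLift G K) :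
    ∃ (a : ℕ) (A : Fin N → Mat r) (B : Fin a → Mat r),
      (∀ i, (A i).IsSymm) ∧ (∀ j, (B j).IsSymm) ∧
      K = {x | ∃ u : Fin a → ℝ, (0 + ∑ i, x i • A i + ∑ j, u j • B j).PosSemidef} := by
  classical
  let π : G →ₗ[ℝ] (Fin N → ℝ) := (LinearMap.fst ℝ (Fin N → ℝ) (Mat r)).comp G.subtype
  have hsurj : LinearMap.range π = ⊤ := by
    rw [eq_top_iff]
    intro x _
    obtain ⟨t, ht, hmem, -⟩ := exists_sub_mem hK x
    obtain ⟨M₁, hM₁, -⟩ := (hG.2 e).mp (e_mem hK)
    obtain ⟨M₂, hM₂, -⟩ := (hG.2 _).mp hmem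
    refine ⟨t⁻¹ • (⟨_, hM₁⟩ - ⟨_, hM₂⟩ : G), ?_⟩
    simp [π, ht.ne']
  obtain ⟨σ, hσ⟩ := π.exists_rightInverse_of_surjective hsurj
  have hσ' : ∀ x, (σ x : (Fin N → ℝ) × Mat r).1 = x := fun x => LinearMap.congr_fun hσ x
  let W : Submodule ℝ (Mat r) := G.comap (LinearMap.inr ℝ (Fin N → ℝ) (Mat r))
  let β := Module.finBasis ℝ W
  refine ⟨_, fun i => (σ (Pi.single i 1) : (Fin N → ℝ) × Mat r).2,
    fun j => (β j : Mat r), fun i => hG.1 _ (σ _).2, fun j => hG.1 _ (β j).2, ?_⟩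
  have hsum : ∀ x : Fin N → ℝ,
      ∑ i, x i • (σ (Pi.single i 1) : (Fin N → ℝ) × Mat r).2 = (σ x : (Fin N → ℝ) × Mat r).2 := by
    intro x
    conv_rhs => rw [pi_eq_sum_univ' x]
    simp [Prod.snd_sum]
  ext x
  rw [hG.2]
  simp only [Set.mem_ofPred, zero_add, hsum]
  constructor
  · rintro ⟨M, hM, hp⟩
    have hd : M - (σ x : (Fin N → ℝ) × Mat r).2 ∈ W := by
      have h := G.sub_mem hM (σ x).2
      change ((0 : Fin N → ℝ), M - (σ x : (Fin N → ℝ) × Mat r).2) ∈ G
      convert h using 1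
      refine Prod.ext ?_ rfl
      simp [hσ']
    refine ⟨fun j => β.repr ⟨_, hd⟩ j, ?_⟩
    have := congrArg Subtype.val (β.sum_repr ⟨_, hd⟩)
    rw [Submodule.coe_sum] at this
    simp only [Submodule.coe_smul] at this
    rw [this]
    simpa using hp
  · rintro ⟨u, hu⟩
    refine ⟨_, ?_, hu⟩
    have hW : ∑ j, u j • (β j : Mat r) ∈ W :=
      W.sum_mem fun j _ => W.smul_mem _ (β j).2
    have h := G.add_mem (σ x).2 hW
    convert h using 1
    refine Prod.ext ?_ rfl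
    simp [hσ', Prod.fst_sum]

end Vale.Agent.P256.SmoothLift
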