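import Vale.Agent.P256.Defs

/-!
Normalisation of semidefinite lifts of a convex cone: the lift can be chosen, without increasing
its size, so that the identity lies over the base point and every lift is bounded by its image.
-/

namespace Vale.Agent.P256.SmoothLift

open Matrix Filter Topology

abbrev Mat (r : ℕ) := Matrix (Fin r) (Fin r) ℝ

variable {N r : ℕ}

/-- `G` is a linear lift of `K`: its positive semidefinite part projects onto `K`. -/
def IsLift (G : Submodule ℝ ((Fin N → ℝ) × Mat r)) (K : Set (Fin N → ℝ)) : Prop :=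
  (∀ z ∈ G, z.2.IsSymm) ∧ ∀ x, x ∈ K ↔ ∃ M, (x, M) ∈ G ∧ M.PosSemidef

/-- A closed convex cone with a ball of radius `ρ` around `e`. -/
structure GoodCone (K : Set (Fin N → ℝ)) (e : Fin N → ℝ) (ρ : ℝ) : Prop where
  closed : IsClosed K
  add : ∀ x ∈ K, ∀ y ∈ K, x + y ∈ K
  smul : ∀ c : ℝ, 0 ≤ c → ∀ x ∈ K, c • x ∈ K
  inner : ∀ x, ‖x‖ ≤ ρ → e + x ∈ K
  pos : 0 < ρ

lemma dot_smul_add (v : Fin r → ℝ) (M M' : Mat r) (c : ℝ) :
    v ⬝ᵥ ((c • M + M') *ᵥ v) = c * (v ⬝ᵥ (M *ᵥ v)) + v ⬝ᵥ (M' *ᵥ v) := by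
  rw [Matrix.add_mulVec, dotProduct_add, Matrix.smul_mulVec, dotProduct_smul, smul_eq_mul]

lemma quad_abs_le (M : Mat r) (v : Fin r → ℝ) :
    |v ⬝ᵥ (M *ᵥ v)| ≤ (∑ i, ∑ j, |M i j|) * (v ⬝ᵥ v) := by
  have hv : ∀ i, v i ^ 2 ≤ v ⬝ᵥ v := fun i => by
    rw [sq]
    exact Finset.single_le_sum (fun j _ => mul_self_nonneg (v j)) (Finset.mem_univ i)
  have e : v ⬝ᵥ (M *ᵥ v) = ∑ i, ∑ j, v i * (M i j * v j) := by
    simp [dotProduct, mulVec, Finset.mul_sum]
  rw [e, Finset.sum_mul]
  refine (Finset.abs_sum_le_sum_abs _ _).trans (Finset.sum_le_sum fun i _ => ?_)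
  rw [Finset.sum_mul]
  refine (Finset.abs_sum_le_sum_abs _ _).trans (Finset.sum_le_sum fun j _ => ?_)
  have hij : |v i * v j| ≤ ∑ k, v k * v k := by
    have h1 := hv i
    have h2 := hv j
    simp only [dotProduct] at h1 h2
    rw [abs_le]
    constructor <;> nlinarith [sq_nonneg (v i - v j), sq_nonneg (v i + v j)]
  calc |v i * (M i j * v j)| = |M i j| * |v i * v j| := by rw [← abs_mul]; ring_nf
    _ ≤ |M i j| * ∑ k, v k * v k := mul_le_mul_of_nonneg_left hij (abs_nonneg _)
    _ = _ := rfl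

/-- `M + η` is positive semidefinite once `η` dominates the distance to a psd matrix. -/
lemma psd_shift {M M' : Mat r} (hM : M.PosSemidef) (hM' : M'.IsSymm) {η : ℝ}
    (hη : ∑ i, ∑ j, |(M' - M) i j| ≤ η) : (M' + η • (1 : Mat r)).PosSemidef := by
  refine PosSemidef.of_dotProduct_mulVec_nonneg ?_ fun v => ?_
  · change (M' + η • (1 : Mat r))ᵀ = _
    simp [hM'.eq]
  · rw [star_trivial]
    have h1 := quad_abs_le (M' - M) v
    have h2 := hM.dotProduct_mulVec_nonneg v
    rw [star_trivial] at h2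
    rw [Matrix.sub_mulVec, dotProduct_sub, abs_le] at h1
    rw [Matrix.add_mulVec, dotProduct_add, Matrix.smul_mulVec, Matrix.one_mulVec, dotProduct_smul,
      smul_eq_mul]
    have hvv : 0 ≤ v ⬝ᵥ v := Finset.sum_nonneg fun i _ => mul_self_nonneg (v i)
    nlinarith [h1.1, mul_le_mul_of_nonneg_right hη hvv]

lemma abs_entry_le_trace {M : Mat r} (hM : M.PosSemidef) (i j : Fin r) : |M i j| ≤ M.trace := by
  have hd : ∀ k, 0 ≤ M k k := fun k => hM.diag_nonneg
  have hk : ∀ k, M k k ≤ M.trace := fun k =>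
    Finset.single_le_sum (f := fun k => M k k) (fun l _ => hd l) (Finset.mem_univ k)
  by_cases hij : i = j
  · subst hij; rw [abs_of_nonneg (hd i)]; exact hk i
  have hsymm : M j i = M i j := by
    have := congrFun (congrFun hM.1 i) j
    simpa using this
  have h := fun s : ℝ => hM.dotProduct_mulVec_nonneg (Pi.single i 1 + Pi.single j s)
  simp only [star_trivial, Matrix.mulVec_add, dotProduct_add, add_dotProduct, single_dotProduct,
    Matrix.mulVec_single, one_mul] at h
  have h1 := h 1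
  have h2 := h (-1)
  simp [Matrix.col] at h1 h2
  rw [hsymm] at h1 h2
  have hij' : M i i + M j j ≤ M.trace := by
    rw [← Finset.sum_pair hij (f := fun k => M k k)]
    exact Finset.sum_le_sum_of_subset_of_nonneg (Finset.subset_univ _) fun k _ _ => hd k
  rw [abs_le]
  constructor <;> linarith [hd i, hd j]

lemma isClosed_psd : IsClosed {M : Mat r | M.PosSemidef} := by
  have : {M : Mat r | M.PosSemidef} =
      {M | Mᵀ = M} ∩ ⋂ v : Fin r → ℝ, {M | 0 ≤ v ⬝ᵥ (M *ᵥ v)} := by
    ext M
    simp only [Set.mem_ofPred, Set.mem_inter_iff, Set.mem_iInter]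
    constructor
    · exact fun h => ⟨h.1, fun v => by simpa using h.dotProduct_mulVec_nonneg v⟩
    · exact fun h => PosSemidef.of_dotProduct_mulVec_nonneg h.1 fun v => by simpa using h.2 v
  rw [this]
  refine IsClosed.inter (isClosed_eq continuous_id.matrix_transpose continuous_id)
    (isClosed_iInter fun v => isClosed_le continuous_const ?_)
  exact continuous_const.dotProduct (continuous_id.matrix_mulVec continuous_const)

/-- Congruence of the matrix component. -/
noncomputable def conjMap (T : Mat r) :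
    ((Fin N → ℝ) × Mat r) →ₗ[ℝ] ((Fin N → ℝ) × Mat r) where
  toFun z := (z.1, Tᵀ * z.2 * T)
  map_add' a b := by simp [Matrix.mul_add, Matrix.add_mul]
  map_smul' c a := by simp

lemma IsLift.conj {G : Submodule ℝ ((Fin N → ℝ) × Mat r)} {K : Set (Fin N → ℝ)}
    (hG : IsLift G K) {T : Mat r} (hT : IsUnit T) : IsLift (G.map (conjMap T)) K := by
  have key : ∀ M : Mat r, (Tᵀ * M * T).PosSemidef ↔ M.PosSemidef := fun M => by
    have := Matrix.IsUnit.posSemidef_star_left_conjugate_iff (U := T) (x := M) hT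
    simpa [Matrix.star_eq_conjTranspose] using this
  refine ⟨?_, fun x => ?_⟩
  · rintro _ ⟨z, hz, rfl⟩
    change (Tᵀ * z.2 * T)ᵀ = _
    simp [Matrix.mul_assoc, (hG.1 z hz).eq, conjMap]
  · rw [hG.2]
    constructor
    · rintro ⟨M, hM, hp⟩
      exact ⟨Tᵀ * M * T, ⟨(x, M), hM, rfl⟩, (key M).mpr hp⟩
    · rintro ⟨M', ⟨⟨x', M⟩, hM, he⟩, hp⟩
      simp only [conjMap, LinearMap.coe_mk, AddHom.coe_mk, Prod.mk.injEq] at he
      obtain ⟨rfl, rfl⟩ := he
      exact ⟨M, hM, (key M).mp hp⟩

/-- Every symmetric matrix is diagonalised by a congruence. -/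
lemma exists_diag {P : Mat r} (hP : P.IsHermitian) :
    ∃ T : Mat r, IsUnit T ∧ Tᵀ * P * T = diagonal hP.eigenvalues := by
  refine ⟨(hP.eigenvectorUnitary : Mat r), (Unitary.toUnits hP.eigenvectorUnitary).isUnit, ?_⟩
  have h := hP.conjStarAlgAut_star_eigenvectorUnitary
  simpa [Unitary.conjStarAlgAut_apply, Matrix.star_eq_conjTranspose,
    RCLike.ofReal_real_eq_id, Function.comp_def] using h

lemma e_mem {K : Set (Fin N → ℝ)} {e : Fin N → ℝ} {ρ : ℝ} (hK : GoodCone K e ρ) : e ∈ K := by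
  simpa using hK.inner 0 (by simpa using hK.pos.le)

lemma exists_sub_mem {K : Set (Fin N → ℝ)} {e : Fin N → ℝ} {ρ : ℝ} (hK : GoodCone K e ρ)
    (x : Fin N → ℝ) : ∃ t > 0, e - t • x ∈ K ∧ ρ ≤ t * (‖x‖ + ρ) := by
  have hpos : 0 < ‖x‖ + ρ := by linarith [norm_nonneg x, hK.pos]
  refine ⟨ρ / (‖x‖ + ρ), div_pos hK.pos hpos, ?_, ?_⟩
  · rw [sub_eq_add_neg]
    apply hK.inner
    rw [norm_neg, norm_smul, Real.norm_eq_abs, abs_of_pos (div_pos hK.pos hpos),
      div_mul_eq_mul_div, div_le_iff₀ hpos]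
    nlinarith [norm_nonneg x, hK.pos]
  · rw [div_mul_cancel₀ _ hpos.ne']

/-- Restriction of a matrix to the indices in the range of `f`. -/
noncomputable def subMap {r' : ℕ} (f : Fin r' → Fin r) :
    ((Fin N → ℝ) × Mat r) →ₗ[ℝ] ((Fin N → ℝ) × Mat r') where
  toFun z := (z.1, z.2.submatrix f f)
  map_add' _ _ := rfl
  map_smul' _ _ := rfl

variable {G : Submodule ℝ ((Fin N → ℝ) × Mat r)} {K : Set (Fin N → ℝ)} {e : Fin N → ℝ} {ρ : ℝ}

/-- A lift of least size has a positive definite point over `e`. -/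
lemma exists_posDef (hK : GoodCone K e ρ) (hG : IsLift G K)
    (hmin : ∀ s < r, ¬∃ G' : Submodule ℝ ((Fin N → ℝ) × Mat s), IsLift G' K) :
    ∃ P, (e, P) ∈ G ∧ P.PosDef := by
  classical
  by_contra hno
  push Not at hno
  have hex : ∃ d, ∃ P, (e, P) ∈ G ∧ P.PosSemidef ∧
      Module.finrank ℝ (LinearMap.ker P.mulVecLin) = d := by
    obtain ⟨P, h1, h2⟩ := (hG.2 e).mp (e_mem hK)
    exact ⟨_, P, h1, h2, rfl⟩
  obtain ⟨P₀, hP₀G, hP₀, hdim⟩ := Nat.find_spec hex
  obtain ⟨T, hT, hdiag⟩ := exists_diag hP₀.1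
  have ⟨i, hi⟩ : ∃ i, hP₀.1.eigenvalues i = 0 := by
    by_contra h
    push Not at h
    apply hno P₀ hP₀G
    exact hP₀.1.posDef_iff_eigenvalues_pos.mpr fun i =>
      lt_of_le_of_ne (hP₀.eigenvalues_nonneg i) (Ne.symm (h i))
  set v : Fin r → ℝ := T *ᵥ Pi.single i 1 with hv
  have hker : ∀ x M, (x, M) ∈ G → M.PosSemidef → M *ᵥ v = 0 := by
    intro x M hM hMp
    obtain ⟨t, ht, hmem, -⟩ := exists_sub_mem hK x
    obtain ⟨M', hM', hM'p⟩ := (hG.2 _).mp hmem
    set P₁ := (1 / 2 : ℝ) • (P₀ + (t • M + M')) with hP₁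
    have hP₁G : (e, P₁) ∈ G := by
      have h := G.smul_mem (1 / 2 : ℝ) (G.add_mem hP₀G (G.add_mem (G.smul_mem t hM) hM'))
      convert h using 1
      ext j <;> simp [hP₁]; ring
    have hS : (t • M + M').PosSemidef := (hMp.smul ht.le).add hM'p
    have hP₁p : P₁.PosSemidef := (hP₀.add hS).smul (by norm_num)
    have hzero : ∀ w, P₁ *ᵥ w = 0 → P₀ *ᵥ w = 0 ∧ M *ᵥ w = 0 := by
      intro w hw
      have h0 : w ⬝ᵥ (P₁ *ᵥ w) = 0 := by simp [hw]
      rw [hP₁, Matrix.smul_mulVec, dotProduct_smul, Matrix.add_mulVec, dotProduct_add,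
        dot_smul_add, smul_eq_mul] at h0
      have a1 := hP₀.dotProduct_mulVec_nonneg w
      have a2 := hMp.dotProduct_mulVec_nonneg w
      have a3 := hM'p.dotProduct_mulVec_nonneg w
      rw [star_trivial] at a1 a2 a3
      have b2 : 0 ≤ t * (w ⬝ᵥ (M *ᵥ w)) := mul_nonneg ht.le a2
      constructor
      · rw [← hP₀.dotProduct_mulVec_zero_iff, star_trivial]; linarith
      · rw [← hMp.dotProduct_mulVec_zero_iff, star_trivial]
        rcases mul_eq_zero.mp (show t * (w ⬝ᵥ (M *ᵥ w)) = 0 by linarith) with h | h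
        · exact absurd h ht.ne'
        · exact h
    have hle : LinearMap.ker P₁.mulVecLin ≤ LinearMap.ker P₀.mulVecLin := fun w hw => by
      simpa using (hzero w (by simpa using hw)).1
    have hge : Module.finrank ℝ (LinearMap.ker P₀.mulVecLin) ≤
        Module.finrank ℝ (LinearMap.ker P₁.mulVecLin) := by
      rw [hdim]
      exact Nat.find_le ⟨P₁, hP₁G, hP₁p, rfl⟩
    have heq := Submodule.eq_of_le_of_finrank_le hle hge
    have hv0 : P₀ *ᵥ v = 0 := by
      have hTu : Function.Injective (Tᵀ).mulVec :=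
        Matrix.mulVec_injective_iff_isUnit.mpr ((Matrix.isUnit_iff_isUnit_det _).mpr (by
          rw [Matrix.det_transpose]; exact (Matrix.isUnit_iff_isUnit_det _).mp hT))
      apply hTu
      rw [hv, Matrix.mulVec_mulVec, Matrix.mulVec_mulVec, hdiag, Matrix.mulVec_zero]
      ext j
      by_cases hji : j = i
      · subst hji; simp [hi]
      · simp [Matrix.mulVec_single, diagonal, hji]
    have : v ∈ LinearMap.ker P₁.mulVecLin := by
      rw [heq]; simpa using hv0
    exact (hzero v (by simpa using this)).2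
  -- compress
  obtain ⟨s, rfl⟩ : ∃ s, r = s + 1 := ⟨r - 1, by have := i.pos; omega⟩
  let G₁ : Submodule ℝ ((Fin N → ℝ) × Mat (s + 1)) :=
    G.map (conjMap T) ⊓
      LinearMap.ker (((mulVecBilin ℝ ℝ).flip (Pi.single i 1)).comp
        (LinearMap.snd ℝ (Fin N → ℝ) (Mat (s + 1))))
  refine hmin s (by omega) ⟨G₁.map (subMap i.succAbove), ?_, fun x => ?_⟩
  · rintro _ ⟨z, hz, rfl⟩
    exact ((hG.conj hT).1 z hz.1).submatrix _
  · rw [(hG.conj hT).2]
    constructor
    · rintro ⟨M', ⟨⟨x', M⟩, hM, he⟩, hp⟩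
      simp only [conjMap, LinearMap.coe_mk, AddHom.coe_mk, Prod.mk.injEq] at he
      obtain ⟨rfl, rfl⟩ := he
      refine ⟨(Tᵀ * M * T).submatrix i.succAbove i.succAbove, ⟨(x', Tᵀ * M * T),
        ⟨⟨(x', M), hM, rfl⟩, ?_⟩, rfl⟩, hp.submatrix _⟩
      have hMp : M.PosSemidef := by
        have := Matrix.IsUnit.posSemidef_star_left_conjugate_iff (U := T) (x := M) hT
        exact this.mp (by simpa [Matrix.star_eq_conjTranspose] using hp)
      simp only [SetLike.mem_coe, LinearMap.mem_ker, LinearMap.comp_apply, LinearMap.snd_apply,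
        LinearMap.flip_apply, mulVecBilin_apply]
      rw [← Matrix.mulVec_mulVec, ← Matrix.mulVec_mulVec, ← hv, hker x' M hM hMp,
        Matrix.mulVec_zero]
    · rintro ⟨S, ⟨⟨x', M⟩, ⟨hM, hcol⟩, he⟩, hp⟩
      simp only [subMap, LinearMap.coe_mk, AddHom.coe_mk, Prod.mk.injEq] at he
      obtain ⟨rfl, rfl⟩ := he
      refine ⟨M, hM, ?_⟩
      have hsym : M.IsSymm := (hG.conj hT).1 _ hM
      simp only [SetLike.mem_coe, LinearMap.mem_ker, LinearMap.comp_apply, LinearMap.snd_apply,
        LinearMap.flip_apply, mulVecBilin_apply] at hcol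
      have hc : ∀ j, M j i = 0 := fun j => by
        have := congrFun hcol j
        simpa [Matrix.mulVec_single] using this
      have hrow : ∀ j, M i j = 0 := fun j => by rw [← hsym.apply]; exact hc j
      refine PosSemidef.of_dotProduct_mulVec_nonneg hsym fun w => ?_
      have h := hp.dotProduct_mulVec_nonneg (w ∘ i.succAbove)
      simp only [star_trivial, dotProduct, mulVec, Fin.sum_univ_succAbove _ i, hc, hrow,
        submatrix_apply, Function.comp] at h ⊢
      simpa using h

/-- A lift of least size has no recession directions. -/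
lemma no_recession (hK : GoodCone K e ρ) (hG : IsLift G K)
    (hmin : ∀ s < r, ¬∃ G' : Submodule ℝ ((Fin N → ℝ) × Mat s), IsLift G' K)
    {R : Mat r} (hR : ((0 : Fin N → ℝ), R) ∈ G) (hRp : R.PosSemidef) : R = 0 := by
  classical
  by_contra hne
  obtain ⟨T, hT, hdiag⟩ := exists_diag hRp.1
  set d := hRp.1.eigenvalues with hd
  obtain ⟨P, hP, hPd⟩ := exists_posDef hK (hG.conj hT)
    (fun s hs => hmin s hs)
  have hRG : ((0 : Fin N → ℝ), diagonal d) ∈ G.map (conjMap T) := ⟨(0, R), hR, by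
    simp [conjMap, hdiag]⟩
  have hlt : Fintype.card {j : Fin r // d j = 0} < r := by
    have : ∃ j, d j ≠ 0 := by
      by_contra h
      push Not at h
      apply hne
      exact hRp.1.eigenvalues_eq_zero_iff.mp (funext h)
    obtain ⟨j, hj⟩ := this
    simpa using Fintype.card_subtype_lt (p := fun j => d j = 0) hj
  let f : Fin (Fintype.card {j : Fin r // d j = 0}) → Fin r :=
    fun k => ((Fintype.equivFin {j : Fin r // d j = 0}).symm k).1
  refine hmin _ hlt ⟨(G.map (conjMap T)).map (subMap f), ?_, fun x => ?_⟩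
  · rintro _ ⟨z, hz, rfl⟩
    exact ((hG.conj hT).1 z hz).submatrix _
  · constructor
    · intro hx
      obtain ⟨M, hM, hp⟩ := ((hG.conj hT).2 x).mp hx
      exact ⟨M.submatrix f f, ⟨(x, M), hM, rfl⟩, hp.submatrix f⟩
    · rintro ⟨S, ⟨⟨x', M⟩, hM, he⟩, hp⟩
      simp only [subMap, LinearMap.coe_mk, AddHom.coe_mk, Prod.mk.injEq] at he
      obtain ⟨rfl, rfl⟩ := he
      have happ : ∀ δ : ℝ, 0 < δ → x' + δ • e ∈ K := by
        intro δ hδ
        let q : (Fin r → ℝ) → ℝ := fun w => w ⬝ᵥ ((δ • P + M) *ᵥ w)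
        let g : (Fin r → ℝ) → ℝ := fun w => w ⬝ᵥ (diagonal d *ᵥ w)
        have hg : ∀ w, g w = ∑ j, d j * w j ^ 2 := fun w => by
          simp only [g, dotProduct, mulVec_diagonal]
          exact Finset.sum_congr rfl fun j _ => by ring
        have hgnn : ∀ w, 0 ≤ g w := fun w => by
          rw [hg]
          exact Finset.sum_nonneg fun j _ => mul_nonneg (hRp.eigenvalues_nonneg j) (sq_nonneg _)
        have hpos : ∀ w : Fin r → ℝ, w ≠ 0 → g w = 0 → 0 < q w := by
          intro w hw hgw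
          rw [hg, Finset.sum_eq_zero_iff_of_nonneg fun j _ =>
            mul_nonneg (hRp.eigenvalues_nonneg j) (sq_nonneg _)] at hgw
          have hsupp : ∀ j, j ∉ Set.range f → w j = 0 := by
            intro j hj
            have hdj : d j ≠ 0 := fun h =>
              hj ⟨Fintype.equivFin {j : Fin r // d j = 0} ⟨j, h⟩, by simp [f]⟩
            rcases mul_eq_zero.mp (hgw j (Finset.mem_univ j)) with h | h
            · exact absurd h hdj
            · exact pow_eq_zero_iff two_ne_zero |>.mp h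
          have hfinj : Function.Injective f := fun a b h =>
            (Fintype.equivFin _).symm.injective (Subtype.ext h)
          have hMw : w ⬝ᵥ (M *ᵥ w) = (w ∘ f) ⬝ᵥ (M.submatrix f f *ᵥ (w ∘ f)) := by
            simp only [dotProduct, mulVec, submatrix_apply, Function.comp]
            refine (Fintype.sum_of_injective f hfinj _ _ (fun j hj => by simp [hsupp j hj])
              fun a => ?_).symm
            congr 1
            exact Fintype.sum_of_injective f hfinj _ _ (fun j hj => by simp [hsupp j hj])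
              fun b => rfl
          have h1 := hp.dotProduct_mulVec_nonneg (w ∘ f)
          rw [star_trivial, ← hMw] at h1
          have h2 := hPd.dotProduct_mulVec_pos hw
          rw [star_trivial] at h2
          simp only [q, dot_smul_add]
          nlinarith
        have hcont : ∀ Q : Mat r, Continuous fun w : Fin r → ℝ => w ⬝ᵥ (Q *ᵥ w) := fun Q =>
          continuous_id.dotProduct (continuous_const.matrix_mulVec continuous_id)
        obtain ⟨k, hk⟩ := (isCompact_sphere (0 : Fin r → ℝ) 1).elim_directed_cover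
          (fun k : ℕ => {w | 0 < q w + k * g w})
          (fun k => isOpen_lt continuous_const ((hcont _).add (continuous_const.mul (hcont _))))
          (fun w hw => by
            have hw0 : w ≠ 0 := by
              intro h; simp [h] at hw
            rcases (hgnn w).lt_or_eq with h | h
            · obtain ⟨k, hk⟩ := exists_nat_gt (-q w / g w)
              refine Set.mem_iUnion.mpr ⟨k, ?_⟩
              rw [div_lt_iff₀ h] at hk
              simp only [Set.mem_ofPred]
              linarith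
            · exact Set.mem_iUnion.mpr ⟨0, by simpa using hpos w hw0 h.symm⟩)
          (Monotone.directed_le (f := fun k : ℕ => {w | 0 < q w + k * g w}) fun a b hab w hw => by
            simp only [Set.mem_ofPred] at hw ⊢
            have : (a : ℝ) * g w ≤ b * g w :=
              mul_le_mul_of_nonneg_right (by exact_mod_cast hab) (hgnn w)
            linarith)
        rw [(hG.conj hT).2]
        refine ⟨δ • P + M + (k : ℝ) • diagonal d, ?_, ?_⟩
        · have h := (G.map (conjMap T)).add_mem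
            ((G.map (conjMap T)).add_mem ((G.map (conjMap T)).smul_mem δ hP) hM)
            ((G.map (conjMap T)).smul_mem (k : ℝ) hRG)
          convert h using 1
          ext j <;> simp; ring
        · refine PosSemidef.of_dotProduct_mulVec_nonneg ?_ fun w => ?_
          · refine ((hPd.1.smul ?_).add ((hG.conj hT).1 _ hM)).add ((isHermitian_diagonal d).smul ?_)
              <;> exact IsSelfAdjoint.all _
          rw [star_trivial]
          by_cases hw : w = 0
          · simp [hw]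
          have hn : 0 < ‖w‖ := norm_pos_iff.mpr hw
          have hs := hk (show ‖w‖⁻¹ • w ∈ Metric.sphere (0 : Fin r → ℝ) 1 by
            simp [norm_smul, hn.ne'])
          simp only [Set.mem_ofPred, q, g, Matrix.mulVec_smul, dotProduct_smul, smul_dotProduct,
            smul_eq_mul] at hs
          rw [Matrix.add_mulVec, dotProduct_add, Matrix.smul_mulVec (k : ℝ), dotProduct_smul,
            smul_eq_mul]
          by_contra hneg
          push Not at hneg
          have hinv : 0 < ‖w‖⁻¹ * ‖w‖⁻¹ := by positivity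
          nlinarith [mul_neg_of_pos_of_neg hinv hneg]
      have hlim : Tendsto (fun δ : ℝ => x' + δ • e) (𝓝[>] 0) (𝓝 x') := by
        have : Continuous fun δ : ℝ => x' + δ • e := by fun_prop
        simpa using (this.tendsto 0).mono_left nhdsWithin_le_nhds
      exact hK.closed.mem_of_tendsto hlim (eventually_nhdsWithin_of_forall happ)

/-- Every lift may be replaced by a normalised one of no larger size. -/
theorem exists_normalized (hK : GoodCone K e ρ) (hG : IsLift G K) :
    ∃ s ≤ r, ∃ H : Submodule ℝ ((Fin N → ℝ) × Mat s), IsLift H K ∧ (e, 1) ∈ H ∧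
      ∀ x M, (x, M) ∈ H → M.PosSemidef → M.trace * ρ ≤ s * (‖x‖ + ρ) := by
  classical
  have hex : ∃ s, ∃ H : Submodule ℝ ((Fin N → ℝ) × Mat s), IsLift H K := ⟨r, G, hG⟩
  obtain ⟨s, hsr, ⟨H₀, hH₀⟩, hmin⟩ : ∃ s ≤ r,
      (∃ H : Submodule ℝ ((Fin N → ℝ) × Mat s), IsLift H K) ∧
      ∀ q < s, ¬∃ G' : Submodule ℝ ((Fin N → ℝ) × Mat q), IsLift G' K :=
    ⟨_, Nat.find_le ⟨G, hG⟩, Nat.find_spec hex, fun q hq => Nat.find_min hex hq⟩
  obtain ⟨P, hP, hPd⟩ := exists_posDef hK hH₀ hmin
  -- the fibre over `e` is compact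
  have hclosedH : IsClosed (H₀ : Set ((Fin N → ℝ) × Mat s)) :=
    Submodule.closed_of_finiteDimensional H₀
  have hbox : IsCompact {M : Mat s | ∀ i j, M i j ∈ Set.Icc (-1 : ℝ) 1} := by
    have : {M : Mat s | ∀ i j, M i j ∈ Set.Icc (-1 : ℝ) 1} =
        Set.pi Set.univ (fun _ => Set.pi Set.univ fun _ => Set.Icc (-1 : ℝ) 1) := by
      ext M; exact ⟨fun h i _ j _ => h i j, fun h i j => h i trivial j trivial⟩
    rw [this]
    exact isCompact_univ_pi fun _ => isCompact_univ_pi fun _ => isCompact_Icc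
  set C := {z : (Fin N → ℝ) × Mat s | z ∈ H₀ ∧ z.2.PosSemidef ∧ z.2.trace = 1} with hC
  have hCclosed : IsClosed C :=
    hclosedH.inter ((isClosed_psd.preimage continuous_snd).inter
      (isClosed_eq continuous_snd.matrix_trace continuous_const))
  have hCbd : ∃ c > 0, ∀ z ∈ C, c ≤ ‖z.1‖ := by
    have hcomp : IsCompact (C ∩ {z | ‖z.1‖ ≤ 1}) := by
      refine IsCompact.of_isClosed_subset ((isCompact_closedBall (0 : Fin N → ℝ) 1).prod hbox)
        (hCclosed.inter (isClosed_le continuous_fst.norm continuous_const)) ?_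
      rintro z ⟨⟨_, hzp, hzt⟩, hz1⟩
      refine ⟨by simpa using hz1, fun i j => ?_⟩
      have := abs_entry_le_trace hzp i j
      rw [hzt, abs_le] at this
      exact this
    rcases Set.eq_empty_or_nonempty (C ∩ {z | ‖z.1‖ ≤ 1}) with h | h
    · refine ⟨1, one_pos, fun z hz => ?_⟩
      by_contra hlt
      have : z ∈ C ∩ {z | ‖z.1‖ ≤ 1} := ⟨hz, (not_le.mp hlt).le⟩
      rw [h] at this; exact this
    · obtain ⟨z₀, hz₀, hmin'⟩ := hcomp.exists_isMinOn h continuous_fst.norm.continuousOn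
      refine ⟨min 1 ‖z₀.1‖, lt_min one_pos ?_, fun z hz => ?_⟩
      · rw [norm_pos_iff]
        intro h0
        obtain ⟨⟨hzH, hzp, hzt⟩, -⟩ := hz₀
        have := no_recession hK hH₀ hmin (R := z₀.2) (by rw [← h0]; exact hzH) hzp
        rw [this] at hzt
        simp at hzt
      · by_cases h1 : ‖z.1‖ ≤ 1
        · exact (min_le_right _ _).trans (hmin' ⟨hz, h1⟩)
        · exact (min_le_left _ _).trans (not_le.mp h1).le
  obtain ⟨c, hc, hcb⟩ := hCbd
  have htr : ∀ x M, (x, M) ∈ H₀ → M.PosSemidef → c * M.trace ≤ ‖x‖ := by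
    intro x M hM hMp
    rcases (hMp.trace_nonneg).lt_or_eq with ht | ht
    · have hmem : (M.trace)⁻¹ • (x, M) ∈ C := ⟨H₀.smul_mem _ hM,
        hMp.smul (inv_nonneg.mpr ht.le), by simp [ht.ne']⟩
      have := hcb _ hmem
      simp only [Prod.smul_fst, norm_smul, Real.norm_eq_abs, abs_inv, abs_of_pos ht] at this
      field_simp at this
      linarith
    · rw [← ht, mul_zero]; exact norm_nonneg x
  set F := {M : Mat s | (e, M) ∈ H₀ ∧ M.PosSemidef} with hF
  have hFcomp : IsCompact F := by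
    set b := ‖e‖ / c with hb
    refine IsCompact.of_isClosed_subset
      (isCompact_univ_pi (s := fun _ : Fin s => Set.pi Set.univ fun _ : Fin s => Set.Icc (-b) b)
        fun _ => isCompact_univ_pi fun _ => isCompact_Icc)
      ((hclosedH.preimage (continuous_const.prodMk continuous_id)).inter isClosed_psd) ?_
    rintro M ⟨hM, hMp⟩ i - j -
    have h1 : |M i j| ≤ b := (abs_entry_le_trace hMp i j).trans (by
      rw [hb, le_div_iff₀ hc]; linarith [htr e M hM hMp])
    exact abs_le.mp h1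
  obtain ⟨P₀, ⟨hP₀, hP₀p⟩, hmax⟩ := hFcomp.exists_isMaxOn ⟨P, hP, hPd.posSemidef⟩
    (continuous_id.matrix_det).continuousOn
  have hP₀pd : P₀.PosDef := hP₀p.posDef_iff_det_ne_zero.mpr
    (lt_of_lt_of_le hPd.det_pos (hmax ⟨hP, hPd.posSemidef⟩)).ne'
  -- normalise to the identity
  obtain ⟨T₀, hT₀, hdiag⟩ := exists_diag hP₀pd.1
  set d := hP₀pd.1.eigenvalues with hd
  have hdpos : ∀ j, 0 < d j := hP₀pd.eigenvalues_pos
  let D : Mat s := diagonal fun j => (Real.sqrt (d j))⁻¹
  have hD : IsUnit D := by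
    rw [Matrix.isUnit_diagonal, Pi.isUnit_iff]
    exact fun j => (inv_ne_zero (Real.sqrt_pos.mpr (hdpos j)).ne').isUnit
  have hT : IsUnit (T₀ * D) := hT₀.mul hD
  set H := H₀.map (conjMap (T₀ * D)) with hH
  have hone : (T₀ * D)ᵀ * P₀ * (T₀ * D) = 1 := by
    rw [Matrix.transpose_mul, show Dᵀ = D from diagonal_transpose _,
      show D * T₀ᵀ * P₀ * (T₀ * D) = D * (T₀ᵀ * P₀ * T₀) * D by simp [Matrix.mul_assoc],
      hdiag, diagonal_mul_diagonal, diagonal_mul_diagonal, ← diagonal_one]
    congr 1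
    funext j
    have := (Real.sqrt_pos.mpr (hdpos j)).ne'
    field_simp
    rw [Real.sq_sqrt (hdpos j).le]
  have heH : (e, (1 : Mat s)) ∈ H := ⟨(e, P₀), hP₀, Prod.ext rfl hone⟩
  have htrace : ∀ R : Mat s, ((0 : Fin N → ℝ), R) ∈ H → R.trace = 0 := by
    rintro R ⟨⟨x', R₀⟩, hR₀, he'⟩
    simp only [conjMap, LinearMap.coe_mk, AddHom.coe_mk, Prod.mk.injEq] at he'
    obtain ⟨rfl, rfl⟩ := he'
    set R := (T₀ * D)ᵀ * R₀ * (T₀ * D) with hRdef
    set q : Polynomial ℝ :=
      det ((1 : Matrix (Fin s) (Fin s) (Polynomial ℝ)) + (Polynomial.X : Polynomial ℝ) •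
        R.map Polynomial.C) with hq
    have hqev : ∀ t : ℝ, q.eval t = det (1 + t • R) := by
      intro t
      rw [hq, ← Polynomial.coe_evalRingHom, RingHom.map_det]
      congr 1
      ext i j
      simp [Matrix.one_apply, apply_ite (Polynomial.eval t)]
      ring
    have hRsym : R.IsSymm := (hH₀.conj hT).1 _ ⟨(0, R₀), hR₀, rfl⟩
    have hsum : 0 ≤ ∑ i, ∑ j, |R i j| :=
      Finset.sum_nonneg fun _ _ => Finset.sum_nonneg fun _ _ => abs_nonneg _
    have hloc : IsLocalMax (fun t => q.eval t) 0 := by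
      filter_upwards [Metric.ball_mem_nhds (0 : ℝ)
        (show (0 : ℝ) < 1 / (∑ i, ∑ j, |R i j| + 1) by positivity)] with t ht
      simp only [hqev, zero_smul, add_zero, det_one]
      have hpsd : ((1 : Mat s) + t • R).PosSemidef := by
        refine PosSemidef.of_dotProduct_mulVec_nonneg ?_ fun v => ?_
        · change ((1 : Mat s) + t • R)ᵀ = _
          simp [hRsym.eq]
        · rw [star_trivial, Matrix.add_mulVec, dotProduct_add, Matrix.one_mulVec,
            Matrix.smul_mulVec, dotProduct_smul, smul_eq_mul]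
          have h1 := quad_abs_le R v
          have hvv : 0 ≤ v ⬝ᵥ v := Finset.sum_nonneg fun i _ => mul_self_nonneg (v i)
          rw [Metric.mem_ball, dist_zero_right, Real.norm_eq_abs,
            lt_div_iff₀ (by positivity)] at ht
          have h2 : |t * (v ⬝ᵥ (R *ᵥ v))| ≤ v ⬝ᵥ v := by
            rw [abs_mul]
            calc |t| * |v ⬝ᵥ (R *ᵥ v)| ≤ |t| * ((∑ i, ∑ j, |R i j|) * (v ⬝ᵥ v)) :=
                  mul_le_mul_of_nonneg_left h1 (abs_nonneg t)
              _ ≤ _ := by nlinarith [mul_nonneg (abs_nonneg t) hvv, mul_le_mul_of_nonneg_right ht.le hvv]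
          linarith [(abs_le.mp h2).1]
      have hmem : ((1 : Mat s) + t • R).PosSemidef ∧
          (P₀ + t • R₀) ∈ F := by
        refine ⟨hpsd, ?_, ?_⟩
        · have := H₀.add_mem hP₀ (H₀.smul_mem t hR₀)
          simpa using this
        · have hconj : (T₀ * D)ᵀ * (P₀ + t • R₀) * (T₀ * D) = 1 + t • R := by
            rw [Matrix.mul_add, Matrix.add_mul, hone, Matrix.mul_smul, Matrix.smul_mul]
          have := Matrix.IsUnit.posSemidef_star_left_conjugate_iff (U := T₀ * D)
            (x := P₀ + t • R₀) hT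
          exact this.mp (by simpa [Matrix.star_eq_conjTranspose, ← hconj] using hpsd)
      have hdet := hmax hmem.2
      have e1 : det ((1 : Mat s) + t • R) = det (T₀ * D) ^ 2 * det (P₀ + t • R₀) := by
        rw [show (1 : Mat s) + t • R = (T₀ * D)ᵀ * (P₀ + t • R₀) * (T₀ * D) by
          rw [Matrix.mul_add, Matrix.add_mul, hone, Matrix.mul_smul, Matrix.smul_mul]]
        rw [det_mul (M := (T₀ * D)ᵀ * (P₀ + t • R₀)), det_mul (M := (T₀ * D)ᵀ), det_transpose]
        ring
      have e0 : (1 : ℝ) = det (T₀ * D) ^ 2 * det P₀ := by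
        rw [← det_one (n := Fin s) (R := ℝ), ← hone, det_mul (M := (T₀ * D)ᵀ * P₀),
          det_mul (M := (T₀ * D)ᵀ), det_transpose]
        ring
      rw [e1, e0]
      exact mul_le_mul_of_nonneg_left hdet (sq_nonneg _)
    have hder := hloc.hasDerivAt_eq_zero (q.hasDerivAt 0)
    rw [hq, Matrix.derivative_det_one_add_X_smul] at hder
    exact hder
  refine ⟨s, hsr, H, hH₀.conj hT, heH, fun x M hM hMp => ?_⟩
  obtain ⟨t, ht, hmem, htb⟩ := exists_sub_mem hK x
  obtain ⟨M', hM', hM'p⟩ := ((hH₀.conj hT).2 _).mp hmem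
  have h0 : ((0 : Fin N → ℝ), t • M + M' - 1) ∈ H := by
    have := H.sub_mem (H.add_mem (H.smul_mem t hM) hM') heH
    simpa using this
  have h1 := htrace _ h0
  simp only [trace_sub, trace_add, trace_smul, trace_one, Fintype.card_fin, smul_eq_mul] at h1
  have h3 : 0 ≤ M'.trace := hM'p.trace_nonneg
  have h4 : t * M.trace ≤ s := by linarith
  have hMt : 0 ≤ M.trace := hMp.trace_nonneg
  calc M.trace * ρ ≤ M.trace * (t * (‖x‖ + ρ)) := mul_le_mul_of_nonneg_left htb hMt
    _ = t * M.trace * (‖x‖ + ρ) := by ring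
    _ ≤ s * (‖x‖ + ρ) := mul_le_mul_of_nonneg_right h4 (by linarith [norm_nonneg x, hK.pos])

end Vale.Agent.P256.SmoothLift
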