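import Vale.Agent.P256.SmoothLift.Arc

/-!
The least feasible value of a one parameter semidefinite programme is algebraic over the ring of
its coefficients.
-/

namespace Vale.Agent.P256.SmoothLift

open Filter Topology Matrix

variable {r : ℕ}

lemma coeff_prod_nonneg {ι : Type*} (s : Finset ι) (μ : ι → ℝ) (hμ : ∀ i ∈ s, 0 ≤ μ i) :
    ∀ k, 0 ≤ (∏ i ∈ s, (Polynomial.X + Polynomial.C (μ i))).coeff k := by
  classical
  induction s using Finset.induction_on with
  | empty => intro k; simp [Polynomial.coeff_one]; split_ifs <;> norm_num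
  | insert a s ha ih =>
    have ih' := ih fun i hi => hμ i (Finset.mem_insert_of_mem hi)
    intro k
    rw [Finset.prod_insert ha, add_mul, Polynomial.coeff_add, Polynomial.coeff_C_mul]
    refine add_nonneg ?_ (mul_nonneg (hμ a (Finset.mem_insert_self a s)) (ih' k))
    cases k with
    | zero => simp
    | succ k => rw [Polynomial.coeff_X_mul]; exact ih' k

lemma charpoly_neg_eq {M : Matrix (Fin r) (Fin r) ℝ} (hM : M.IsHermitian) :
    (-M).charpoly = ∏ i, (Polynomial.X + Polynomial.C (hM.eigenvalues i)) := by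
  apply Polynomial.funext
  intro x
  rw [Matrix.eval_charpoly, Polynomial.eval_prod]
  have h1 : Matrix.scalar (Fin r) x - -M = -(Matrix.scalar (Fin r) (-x) - M) := by
    rw [map_neg]; abel
  rw [h1, Matrix.det_neg, ← Matrix.eval_charpoly, hM.charpoly_eq, Polynomial.eval_prod,
    ← Finset.card_univ, ← Finset.prod_const, ← Finset.prod_mul_distrib]
  refine Finset.prod_congr rfl fun i _ => ?_
  simp only [Polynomial.eval_sub, Polynomial.eval_add, Polynomial.eval_X, Polynomial.eval_C,
    RCLike.ofReal_real_eq_id, id]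
  ring

/-- A symmetric real matrix is positive semidefinite iff the coefficients of the characteristic
polynomial of its negative are nonnegative. -/
lemma posSemidef_iff_coeff {M : Matrix (Fin r) (Fin r) ℝ} (hM : M.IsHermitian) :
    M.PosSemidef ↔ ∀ k ≤ r, 0 ≤ (-M).charpoly.coeff k := by
  constructor
  · intro h k _
    rw [charpoly_neg_eq hM]
    exact coeff_prod_nonneg _ _ (fun i _ => h.eigenvalues_nonneg i) k
  · intro h
    rw [hM.posSemidef_iff_eigenvalues_nonneg]
    intro i
    by_contra hi
    rw [Pi.zero_apply, not_le] at hi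
    have h0 : (-M).charpoly.eval (-hM.eigenvalues i) = 0 := by
      rw [charpoly_neg_eq hM, Polynomial.eval_prod]
      exact Finset.prod_eq_zero (Finset.mem_univ i) (by simp)
    have hdeg : (-M).charpoly.natDegree = r := by
      rw [Matrix.charpoly_natDegree_eq_dim, Fintype.card_fin]
    rw [Polynomial.eval_eq_sum_range, hdeg, Finset.sum_range_succ] at h0
    have hlead : (-M).charpoly.coeff r = 1 := by
      have := (-M).charpoly_monic
      rwa [Polynomial.Monic, Polynomial.leadingCoeff, hdeg] at this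
    rw [hlead, one_mul] at h0
    have hpos : 0 < (-hM.eigenvalues i) ^ r := pow_pos (by linarith) _
    have hsum : 0 ≤ ∑ k ∈ Finset.range r, (-M).charpoly.coeff k * (-hM.eigenvalues i) ^ k :=
      Finset.sum_nonneg fun k hk =>
        mul_nonneg (h k (Finset.mem_range.mp hk).le) (pow_nonneg (by linarith) _)
    linarith

variable {R : Type*} [CommRing R] [Algebra R ℝ] {b : ℕ}

/-- If the least `s` for which `P₀ + s P₁ + ∑ u_j B_j ⪰ 0` is feasible exists, it is algebraic
over the ring containing the entries of the matrices. -/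
theorem isAlgebraic_of_isLeast (P₀ P₁ : Matrix (Fin r) (Fin r) R)
    (B : Fin b → Matrix (Fin r) (Fin r) R)
    (h₀ : (P₀.map (algebraMap R ℝ)).IsSymm) (h₁ : (P₁.map (algebraMap R ℝ)).IsSymm)
    (hB : ∀ j, ((B j).map (algebraMap R ℝ)).IsSymm) {τ : ℝ}
    (h : IsLeast {s : ℝ | ∃ u : Fin b → ℝ, (P₀.map (algebraMap R ℝ) +
      s • P₁.map (algebraMap R ℝ) + ∑ j, u j • (B j).map (algebraMap R ℝ)).PosSemidef} τ) :
    IsAlgebraic R τ := by
  by_contra hτ
  obtain ⟨u, hu⟩ := h.1
  obtain ⟨c, hc, hrel⟩ := exists_arc (R := R) τ hτ b u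
  let L : ℝ → (Fin b → ℝ) → Matrix (Fin r) (Fin r) ℝ := fun s v =>
    P₀.map (algebraMap R ℝ) + s • P₁.map (algebraMap R ℝ) +
      ∑ j, v j • (B j).map (algebraMap R ℝ)
  let N : Matrix (Fin r) (Fin r) (MvPolynomial (Fin b) (Polynomial R)) := Matrix.of fun i k =>
    -(MvPolynomial.C (Polynomial.C (P₀ i k)) +
      MvPolynomial.C (Polynomial.X * Polynomial.C (P₁ i k)) +
      ∑ j, MvPolynomial.X j * MvPolynomial.C (Polynomial.C (B j i k)))
  have hN : ∀ (s : ℝ) (v : Fin b → ℝ),
      N.map (MvPolynomial.eval₂Hom (Polynomial.aeval (R := R) s).toRingHom v) = -(L s v) := by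
    intro s v
    ext i k
    simp [N, L, Matrix.sum_apply]
    ring
  have hherm : ∀ (s : ℝ) (v : Fin b → ℝ), (L s v).IsHermitian := by
    intro s v
    change (L s v)ᴴ = L s v
    ext i k
    simp only [Matrix.conjTranspose_apply, star_trivial]
    simp only [L, Matrix.add_apply, Matrix.smul_apply, Matrix.sum_apply]
    rw [h₀.apply i k, h₁.apply i k]
    congr 1
    exact Finset.sum_congr rfl fun j _ => by rw [(hB j).apply i k]
  have hcoef : ∀ (s : ℝ) (v : Fin b → ℝ) (k : ℕ), (-(L s v)).charpoly.coeff k =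
      MvPolynomial.eval₂ (Polynomial.aeval (R := R) s).toRingHom v (N.charpoly.coeff k) := by
    intro s v k
    rw [← hN, Matrix.charpoly_map, Polynomial.coeff_map]
    rfl
  have hu' : (L τ u).PosSemidef := hu
  have hev : ∀ k ∈ Finset.range (r + 1), ∀ᶠ s in 𝓝 τ, 0 ≤ (-(L s (c s))).charpoly.coeff k := by
    intro k hk
    have h0 : 0 ≤ (-(L τ u)).charpoly.coeff k :=
      (posSemidef_iff_coeff (hherm τ u)).mp hu' k (Nat.lt_succ_iff.mp (Finset.mem_range.mp hk))
    rcases h0.lt_or_eq with hpos | hzero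
    · have hcont : Tendsto (fun s => (-(L s (c s))).charpoly.coeff k) (𝓝 τ)
          (𝓝 ((-(L τ u)).charpoly.coeff k)) := by
        simp only [hcoef]
        induction (N.charpoly.coeff k) using MvPolynomial.induction_on with
        | C q => simpa using (q.continuous_aeval (A := ℝ)).tendsto τ
        | add p q hp hq => simpa using hp.add hq
        | mul_X p i hp =>
          simp only [MvPolynomial.eval₂_mul, MvPolynomial.eval₂_X]
          exact hp.mul (((continuous_apply i).tendsto _).comp hc)
      filter_upwards [hcont.eventually (lt_mem_nhds hpos)] with s hs using hs.le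
    · rw [hcoef] at hzero
      filter_upwards [hrel _ hzero.symm] with s hs
      rw [hcoef, hs]
  have hall : ∀ᶠ s in 𝓝 τ, ∀ k ∈ Finset.range (r + 1), 0 ≤ (-(L s (c s))).charpoly.coeff k :=
    (Finset.range (r + 1)).eventually_all.mpr hev
  obtain ⟨s, hs, hsτ⟩ := ((hall.filter_mono nhdsWithin_le_nhds).and
    (self_mem_nhdsWithin (a := τ) (s := Set.Iio τ))).exists
  have hmem : (L s (c s)).PosSemidef := (posSemidef_iff_coeff (hherm s (c s))).mpr
    fun k hk => hs k (Finset.mem_range.mpr (Nat.lt_succ_of_le hk))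
  exact not_le.mpr hsτ (h.2 ⟨c s, hmem⟩)

end Vale.Agent.P256.SmoothLift
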