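import Vale.Agent.P256.SmoothLift.Count
import Vale.Agent.P256.SmoothLift.Limit

/-!
Rational coefficients: by the limit theorem the lower bound passes from generic to some rational
coefficient vectors.
-/

namespace Vale.Agent.P256.SmoothLift

open MvPolynomial Filter Topology

variable {n m : ℕ}

lemma univ_nonempty_fin (hm : 1 ≤ m) : (Finset.univ : Finset (Fin m)).Nonempty :=
  ⟨⟨0, hm⟩, Finset.mem_univ _⟩

/-- The largest root. -/
noncomputable def maxRoot (hm : 1 ≤ m) (E : MvPolynomial (Fin n) ℝ) (y : Fin n → ℝ) : ℝ :=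
  Finset.univ.sup' (univ_nonempty_fin hm) fun j => Real.sqrt (rootSq E hm y j)

lemma mem_cone_iff_maxRoot {E : MvPolynomial (Fin n) ℝ} (hm : 1 ≤ m) (hE : SmallForm m E)
    (x : Fin (n + 1) → ℝ) :
    x ∈ hyperbolicityCone (familyPoly m E) (e₀ n) ↔ maxRoot hm E (Fin.tail x) ≤ x 0 := by
  rw [mem_cone_iff hE hm, maxRoot, Finset.sup'_le_iff]
  simp

lemma tendsto_sqNorm {α : Type*} {l : Filter α} {ys : α → Fin n → ℝ} {y : Fin n → ℝ}
    (hy : Tendsto ys l (𝓝 y)) : Tendsto (fun k => sqNorm (ys k)) l (𝓝 (sqNorm y)) := by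
  have hc : Continuous (sqNorm : (Fin n → ℝ) → ℝ) := by unfold sqNorm; fun_prop
  exact (hc.tendsto y).comp hy

/-- The roots depend continuously on the point and on the coefficients. -/
lemma tendsto_rootSq (hm : 1 ≤ m) {α : Type*} {l : Filter α}
    {εs : α → Sym (Fin n) (2 * m) → ℝ} {ε : Sym (Fin n) (2 * m) → ℝ}
    (hεs : ∀ k s, |εs k s| ≤ boxRadius n m) (hε : ∀ s, |ε s| ≤ boxRadius n m)
    (hlim : Tendsto εs l (𝓝 ε)) {ys : α → Fin n → ℝ} {y : Fin n → ℝ} (hy : Tendsto ys l (𝓝 y))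
    (j : Fin m) :
    Tendsto (fun k => rootSq (formOf (εs k)) hm (ys k) j) l
      (𝓝 (rootSq (formOf ε) hm y j)) := by
  have hρ := tendsto_sqNorm hy
  have hspec := fun k => rootSq_spec hm (smallForm_formOf _ (hεs k)) (ys k)
  have hspec' := rootSq_spec hm (smallForm_formOf _ hε) y
  rcases (sqNorm_nonneg y).lt_or_eq with hpos | hzero
  swap
  · rw [hspec'.2.1 hzero.symm j]
    refine squeeze_zero (fun k => (hspec k).1 j) (fun k => ((hspec k).2.2.2.1 j).2) ?_
    rw [← hzero] at hρ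
    simpa using hρ.const_mul ((((j : ℕ) : ℝ) + 1) + 1 / 2)
  let h : α → ℝ → ℝ := fun k u => ∏ i, (u - rootSq (formOf (εs k)) hm (ys k) i)
  let h₀ : ℝ → ℝ := fun u => ∏ i, (u - rootSq (formOf ε) hm y i)
  have hval : ∀ (E : MvPolynomial (Fin n) ℝ) (hE : SmallForm m E) (z : Fin n → ℝ) (u : ℝ),
      ∏ i, (u - rootSq E hm z i) =
        (∏ i : Fin m, (u - (((i : ℕ) : ℝ) + 1) * sqNorm z)) + eval z E := by
    intro E hE z u
    have := congrArg (Polynomial.eval u) (rootSq_spec hm hE z).2.2.2.2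
    simp only [Polynomial.eval_add, Polynomial.eval_prod, Polynomial.eval_sub, Polynomial.eval_X,
      Polynomial.eval_C] at this
    exact this.symm
  have hh : ∀ u, Tendsto (fun k => h k u) l (𝓝 (h₀ u)) := by
    intro u
    simp only [h, h₀, hval _ (smallForm_formOf _ hε), fun k => hval _ (smallForm_formOf _ (hεs k))]
    refine Tendsto.add (tendsto_finsetProd _ fun i _ => tendsto_const_nhds.sub (hρ.const_mul _)) ?_
    simp only [eval_formOf]
    refine tendsto_finsetSum _ fun s _ =>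
      (((continuous_apply s).tendsto ε).comp hlim).mul ?_
    have hc : Continuous fun z : Fin n → ℝ => ((s : Multiset (Fin n)).map z).prod :=
      continuous_multiset_prod _ fun i _ => continuous_apply i
    exact (hc.tendsto y).comp hy
  obtain ⟨-, hinj⟩ := hspec'.2.2.1 hpos
  set w := rootSq (formOf ε) hm y with hw
  have hwint : ∀ i : Fin m, (((i : ℕ) : ℝ) + 1 / 2) * sqNorm y < w i ∧
      w i < ((((i : ℕ) : ℝ) + 1) + 1 / 2) * sqNorm y := by
    intro i
    have hb := hspec'.2.2.2.1 i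
    have hne : ∀ q : ℕ, w i ≠ ((q : ℝ) + 1 / 2) * sqNorm y := by
      intro q hq
      have h0 : h₀ (w i) = 0 := Finset.prod_eq_zero (Finset.mem_univ i) (sub_self _)
      simp only [h₀, hw, hval _ (smallForm_formOf _ hε)] at h0
      rw [← hw, hq] at h0
      have hE := (smallForm_formOf _ hε).2 y
      have hprod : (1 / 2 * sqNorm y) ^ m ≤
          |∏ i : Fin m, ((((q : ℝ)) + 1 / 2) * sqNorm y - (((i : ℕ) : ℝ) + 1) * sqNorm y)| := by
        rw [Finset.abs_prod]
        calc (1 / 2 * sqNorm y) ^ m = ∏ _i : Fin m, (1 / 2 * sqNorm y) := by simp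
          _ ≤ _ := Finset.prod_le_prod (fun _ _ => by positivity) fun i _ => by
            rw [show ((q : ℝ) + 1 / 2) * sqNorm y - (((i : ℕ) : ℝ) + 1) * sqNorm y =
              ((q : ℝ) - (i : ℕ) - 1 / 2) * sqNorm y by ring, abs_mul, abs_of_pos hpos]
            exact mul_le_mul_of_nonneg_right (half_le q i) hpos.le
      have h2 : (1 / 4 * sqNorm y) ^ m < (1 / 2 * sqNorm y) ^ m :=
        pow_lt_pow_left₀ (by linarith) (by positivity) (by omega)
      rw [mul_pow] at h2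
      rw [add_eq_zero_iff_eq_neg.mp h0, abs_neg] at hprod
      linarith
    refine ⟨lt_of_le_of_ne hb.1 (hne i).symm, lt_of_le_of_ne hb.2 ?_⟩
    have := hne ((i : ℕ) + 1)
    push_cast at this
    exact this
  rw [Metric.tendsto_nhds]
  intro η hη
  have hcont : Continuous fun u => ∏ i ∈ Finset.univ.erase j, (u - w i) :=
    continuous_finsetProd _ fun i _ => continuous_id.sub continuous_const
  have hg0 : ∏ i ∈ Finset.univ.erase j, (w j - w i) ≠ 0 :=
    Finset.prod_ne_zero_iff.mpr fun i hi =>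
      sub_ne_zero.mpr fun he => (Finset.mem_erase.mp hi).1 (hinj he).symm
  have hsign : ∀ᶠ u in 𝓝 (w j), 0 <
      (∏ i ∈ Finset.univ.erase j, (u - w i)) * ∏ i ∈ Finset.univ.erase j, (w j - w i) :=
    ((hcont.mul continuous_const).tendsto (w j)).eventually (lt_mem_nhds (mul_self_pos.mpr hg0))
  have hint : ∀ᶠ u in 𝓝 (w j), (((j : ℕ) : ℝ) + 1 / 2) * sqNorm y < u ∧
      u < ((((j : ℕ) : ℝ) + 1) + 1 / 2) * sqNorm y :=
    (eventually_gt_nhds (hwint j).1).and (eventually_lt_nhds (hwint j).2)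
  obtain ⟨δ, hδ, hball⟩ := Metric.eventually_nhds_iff.mp (hsign.and hint)
  set θ := min (η / 2) (δ / 2) with hθ
  have hθ0 : 0 < θ := lt_min (by linarith) (by linarith)
  have hθδ : θ < δ := (min_le_right _ _).trans_lt (by linarith)
  have h1 := hball (y := w j + θ) (by rw [Real.dist_eq, add_sub_cancel_left, abs_of_pos hθ0]; exact hθδ)
  have h2 := hball (y := w j - θ) (by
    rw [Real.dist_eq, sub_sub_cancel_left, abs_neg, abs_of_pos hθ0]; exact hθδ)
  have hneg : h₀ (w j - θ) * h₀ (w j + θ) < 0 := by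
    have e : ∀ u, h₀ u = (u - w j) * ∏ i ∈ Finset.univ.erase j, (u - w i) := fun u =>
      (Finset.mul_prod_erase _ _ (Finset.mem_univ j)).symm
    rw [e, e, sub_sub_cancel_left, add_sub_cancel_left]
    have hgg := mul_pos h1.1 h2.1
    have hsq := mul_self_pos.mpr hg0
    nlinarith [mul_pos hθ0 hθ0]
  have hevneg : ∀ᶠ k in l, h k (w j - θ) * h k (w j + θ) < 0 :=
    ((hh _).mul (hh _)).eventually (gt_mem_nhds hneg)
  have hevint : ∀ᶠ k in l, (((j : ℕ) : ℝ) + 1 / 2) * sqNorm (ys k) < w j - θ ∧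
      w j + θ < ((((j : ℕ) : ℝ) + 1) + 1 / 2) * sqNorm (ys k) :=
    ((hρ.const_mul _).eventually (gt_mem_nhds h2.2.1)).and
      ((hρ.const_mul _).eventually (lt_mem_nhds h1.2.2))
  filter_upwards [hevneg, hevint, hρ.eventually (lt_mem_nhds hpos)] with k hk hk' hkpos
  have hcontk : Continuous (h k) :=
    continuous_finsetProd _ fun i _ => continuous_id.sub continuous_const
  have hmem : (0 : ℝ) ∈ Set.uIcc (h k (w j - θ)) (h k (w j + θ)) := by
    rcases mul_neg_iff.mp hk with ⟨ha, hb⟩ | ⟨ha, hb⟩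
    · exact Set.mem_uIcc.mpr (Or.inr ⟨hb.le, ha.le⟩)
    · exact Set.mem_uIcc.mpr (Or.inl ⟨ha.le, hb.le⟩)
  obtain ⟨u, hu, hu0⟩ := intermediate_value_uIcc hcontk.continuousOn hmem
  rw [Set.uIcc_of_le (by linarith)] at hu
  obtain ⟨i, -, hi⟩ := Finset.prod_eq_zero_iff.mp hu0
  have hiu : u = rootSq (formOf (εs k)) hm (ys k) i := sub_eq_zero.mp hi
  have hib := (hspec k).2.2.2.1 i
  have hij : i = j := by
    rcases lt_trichotomy (i : ℕ) j with hlt | heq | hgt
    · have : ((i : ℕ) : ℝ) + 1 ≤ (j : ℕ) := by exact_mod_cast hlt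
      nlinarith [hk'.1, hu.1]
    · exact Fin.ext heq
    · have : ((j : ℕ) : ℝ) + 1 ≤ (i : ℕ) := by exact_mod_cast hgt
      nlinarith [hk'.2, hu.2]
  subst hij
  rw [Real.dist_eq, ← hiu, abs_lt]
  constructor <;> linarith [hu.1, hu.2, min_le_left (η / 2) (δ / 2)]

lemma tendsto_maxRoot (hm : 1 ≤ m) {α : Type*} {l : Filter α}
    {εs : α → Sym (Fin n) (2 * m) → ℝ} {ε : Sym (Fin n) (2 * m) → ℝ}
    (hεs : ∀ k s, |εs k s| ≤ boxRadius n m) (hε : ∀ s, |ε s| ≤ boxRadius n m)
    (hlim : Tendsto εs l (𝓝 ε)) {ys : α → Fin n → ℝ} {y : Fin n → ℝ} (hy : Tendsto ys l (𝓝 y)) :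
    Tendsto (fun k => maxRoot hm (formOf (εs k)) (ys k)) l (𝓝 (maxRoot hm (formOf ε) y)) := by
  have hc : Continuous fun v : Fin m → ℝ =>
      Finset.univ.sup' (univ_nonempty_fin hm) fun j => Real.sqrt (v j) :=
    Continuous.finset_sup'_apply _ fun j _ => (continuous_apply j).sqrt
  exact (hc.tendsto _).comp (tendsto_pi_nhds.mpr fun j => tendsto_rootSq hm hεs hε hlim hy j)

lemma maxRoot_nonneg (hm : 1 ≤ m) (E : MvPolynomial (Fin n) ℝ) (y : Fin n → ℝ) :
    0 ≤ maxRoot hm E y :=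
  le_trans (Real.sqrt_nonneg _) (Finset.le_sup' (fun j => Real.sqrt (rootSq E hm y j))
    (Finset.mem_univ ⟨0, hm⟩))

/-- The radius of a ball around `e₀` inside every cone of the family. -/
noncomputable def innerRadius (n m : ℕ) : ℝ := 1 / (2 * ((m : ℝ) + 1) * ((n : ℝ) + 1))

lemma goodCone_family (hm : 1 ≤ m) {ε : Sym (Fin n) (2 * m) → ℝ}
    (hε : ∀ s, |ε s| ≤ boxRadius n m)
    (hadd : ∀ x ∈ hyperbolicityCone (familyPoly m (formOf ε)) (e₀ n),
      ∀ y ∈ hyperbolicityCone (familyPoly m (formOf ε)) (e₀ n),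
        x + y ∈ hyperbolicityCone (familyPoly m (formOf ε)) (e₀ n))
    (hsmul : ∀ c : ℝ, 0 ≤ c → ∀ x ∈ hyperbolicityCone (familyPoly m (formOf ε)) (e₀ n),
        c • x ∈ hyperbolicityCone (familyPoly m (formOf ε)) (e₀ n)) :
    GoodCone (hyperbolicityCone (familyPoly m (formOf ε)) (e₀ n)) (e₀ n) (innerRadius n m) := by
  have hE := smallForm_formOf _ hε
  refine ⟨?_, hadd, hsmul, fun x hx => ?_, by unfold innerRadius; positivity⟩
  · apply IsSeqClosed.isClosed
    intro xs x hxs hlim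
    rw [mem_cone_iff_maxRoot hm hE]
    have hy : Tendsto (fun k => Fin.tail (xs k)) atTop (𝓝 (Fin.tail x)) :=
      tendsto_pi_nhds.mpr fun i => ((continuous_apply i.succ).tendsto x).comp hlim
    exact le_of_tendsto_of_tendsto' (tendsto_maxRoot hm (fun _ => hε) hε tendsto_const_nhds hy)
      (((continuous_apply 0).tendsto x).comp hlim)
      fun k => (mem_cone_iff_maxRoot hm hE _).mp (hxs k)
  · rw [mem_cone_iff hE hm]
    intro j
    have hρ : innerRadius n m ≤ 1 / 2 := by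
      unfold innerRadius
      gcongr
      nlinarith [(Nat.cast_nonneg m : (0 : ℝ) ≤ m), (Nat.cast_nonneg n : (0 : ℝ) ≤ n)]
    have hxi : ∀ i, |x i| ≤ innerRadius n m := fun i => (norm_le_pi_norm x i).trans hx
    have htail : Fin.tail (e₀ n + x) = Fin.tail x := by
      funext i; simp [Fin.tail, e₀, Fin.succ_ne_zero]
    have h0 : (e₀ n + x) 0 = 1 + x 0 := by simp [e₀]
    rw [htail, h0]
    have hx0 : 1 / 2 ≤ 1 + x 0 := by linarith [(abs_le.mp (hxi 0)).1]
    rw [Real.sqrt_le_left (by linarith)]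
    have hb := ((rootSq_spec hm hE (Fin.tail x)).2.2.2.1 j).2
    have hj : ((j : ℕ) : ℝ) + 1 ≤ m := by exact_mod_cast j.2
    have hsq : sqNorm (Fin.tail x) ≤ ((n : ℝ) + 1) * innerRadius n m ^ 2 := by
      calc sqNorm (Fin.tail x) ≤ ∑ _i : Fin n, innerRadius n m ^ 2 :=
            Finset.sum_le_sum fun i _ => sq_le_sq' (abs_le.mp (hxi i.succ)).1
              (abs_le.mp (hxi i.succ)).2
        _ ≤ _ := by
          rw [Finset.sum_const, Finset.card_univ, Fintype.card_fin, nsmul_eq_mul]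
          nlinarith [sq_nonneg (innerRadius n m)]
    have hval : 2 * ((m : ℝ) + 1) * (((n : ℝ) + 1) * innerRadius n m ^ 2) ≤ 1 / 2 := by
      have : 2 * ((m : ℝ) + 1) * (((n : ℝ) + 1) * innerRadius n m ^ 2) = innerRadius n m := by
        unfold innerRadius; field_simp
      linarith
    calc rootSq (formOf ε) hm (Fin.tail x) j
        ≤ (((j : ℕ) : ℝ) + 1 + 1 / 2) * sqNorm (Fin.tail x) := hb
      _ ≤ ((m : ℝ) + 1) * (((n : ℝ) + 1) * innerRadius n m ^ 2) :=
          mul_le_mul (by linarith) hsq (sqNorm_nonneg _) (by positivity)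
      _ ≤ (1 / 2) ^ 2 := by linarith
      _ ≤ (1 + x 0) ^ 2 := by gcongr

end Vale.Agent.P256.SmoothLift
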