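import Vale.Agent.P256.SmoothLift.Rational
import Vale.Agent.P256.Compose

/-!
The lower bound for some polynomial with rational coefficients.
-/

namespace Vale.Agent.P256.SmoothLift

open MvPolynomial Filter Topology

variable {n m : ℕ}

/-- `formOf` for rational coefficients. -/
noncomputable def formQ (q : Sym (Fin n) (2 * m) → ℚ) : MvPolynomial (Fin n) ℚ :=
  ∑ s : Sym (Fin n) (2 * m), C (q s) * ((s : Multiset (Fin n)).map X).prod

/-- `familyPoly` over `ℚ`. -/
noncomputable def familyQ (m : ℕ) (E : MvPolynomial (Fin n) ℚ) : MvPolynomial (Fin (n + 1)) ℚ :=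
  (∏ j : Fin m, (X 0 ^ 2 - C (((j : ℕ) : ℚ) + 1) * ∑ i : Fin n, X i.succ ^ 2)) +
    rename Fin.succ E

lemma map_familyQ (q : Sym (Fin n) (2 * m) → ℚ) :
    MvPolynomial.map (algebraMap ℚ ℝ) (familyQ m (formQ q)) =
      familyPoly m (formOf fun s => (q s : ℝ)) := by
  have hE : MvPolynomial.map (algebraMap ℚ ℝ) (formQ q) = formOf fun s => (q s : ℝ) := by
    simp only [formQ, formOf, map_sum, map_mul, map_C, symMonomial, map_multiset_prod,
      Multiset.map_map, Function.comp_def, map_X, eq_ratCast]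
  simp only [familyQ, familyPoly, map_add, map_rename, hE, map_prod, map_sub, map_mul, map_pow,
    map_sum, map_X, map_C, map_natCast, map_one]

/-- The size bound. -/
def sizeBound (n r : ℕ) : ℕ := (r * r + n + 2) * (r * r)

lemma sizeBound_mono (n : ℕ) {r s : ℕ} (h : r ≤ s) : sizeBound n r ≤ sizeBound n s := by
  have := Nat.mul_le_mul h h
  exact Nat.mul_le_mul (by omega) this

/-- Some hyperbolic polynomial of the family with rational coefficients needs semidefinite lifts
of size `r` with `multichoose n (2m) ≤ sizeBound n (r + 1)`. -/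
theorem rational_lift_size_bound (n m : ℕ) (hm : 1 ≤ m) :
    ∃ q : Sym (Fin n) (2 * m) → ℚ, (∀ s, |((q s : ℝ))| ≤ boxRadius n m) ∧
      ∀ (a r : ℕ) (A₀ : Matrix (Fin r) (Fin r) ℝ) (A : Fin (n + 1) → Matrix (Fin r) (Fin r) ℝ)
        (B : Fin a → Matrix (Fin r) (Fin r) ℝ),
        A₀.IsSymm → (∀ i, (A i).IsSymm) → (∀ j, (B j).IsSymm) →
        hyperbolicityCone (familyPoly m (formOf fun s => (q s : ℝ))) (e₀ n) =
          {x | ∃ u : Fin a → ℝ, (A₀ + ∑ i, x i • A i + ∑ j, u j • B j).PosSemidef} →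
        Nat.multichoose n (2 * m) ≤ sizeBound n (r + 1) := by
  classical
  by_contra hno
  push Not at hno
  set M := Nat.multichoose n (2 * m) with hM
  obtain ⟨f, hf, hfs⟩ := exists_indep_small (boxRadius_pos n m) (Fintype.card (Sym (Fin n) (2 * m)))
  let ι := Fintype.equivFin (Sym (Fin n) (2 * m))
  let ε : Sym (Fin n) (2 * m) → ℝ := fun s => f (ι s)
  have hind : AlgebraicIndependent ℚ ε := hf.comp ι ι.injective
  have hbox : ∀ s, |ε s| ≤ boxRadius n m := fun s => by
    rw [abs_of_pos (hfs _).1]; exact (hfs _).2.le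
  -- rational approximations
  have happ : ∀ (k : ℕ) s, ∃ q : ℚ, max (0 : ℝ) (ε s - 1 / ((k : ℝ) + 1)) < q ∧ (q : ℝ) < ε s :=
    fun k s => exists_rat_btwn (max_lt (hfs _).1 (sub_lt_self _ (by positivity)))
  choose qs hqs hqs' using happ
  have hqbox : ∀ k s, |((qs k s : ℝ))| ≤ boxRadius n m := fun k s => by
    rw [abs_of_pos (lt_of_le_of_lt (le_max_left _ _) (hqs k s))]
    exact (hqs' k s).le.trans (hfs _).2.le
  set εs : ℕ → Sym (Fin n) (2 * m) → ℝ := fun k s => (qs k s : ℝ) with hεs
  have hlim : Tendsto εs atTop (𝓝 ε) := by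
    rw [tendsto_pi_nhds]
    intro s
    have h1 : Tendsto (fun k : ℕ => ε s - 1 / ((k : ℝ) + 1)) atTop (𝓝 (ε s)) := by
      simpa using (tendsto_one_div_add_atTop_nhds_zero_nat (𝕜 := ℝ)).const_sub (ε s)
    exact tendsto_of_tendsto_of_tendsto_of_le_of_le h1 tendsto_const_nhds
      (fun k => ((le_max_right _ _).trans (hqs k s).le)) fun k => (hqs' k s).le
  -- all approximants have small lifts
  set R := Nat.findGreatest (fun r => sizeBound n (r + 1) < M) M with hR
  let p : ℕ → MvPolynomial (Fin (n + 1)) ℝ := fun k => familyPoly m (formOf (εs k))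
  have hdata : ∀ k, GoodCone (hyperbolicityCone (p k) (e₀ n)) (e₀ n) (innerRadius n m) ∧
      ∃ r' ≤ R + 1, ∃ G : Submodule ℝ ((Fin (n + 1) → ℝ) × Mat r'),
        IsLift G (hyperbolicityCone (p k) (e₀ n)) := by
    intro k
    obtain ⟨a, r, A₀, A, B, h₀, hA, hB, hK, hlt⟩ := hno (qs k) (hqbox k)
    have hE := smallForm_formOf _ (hqbox k)
    have hd := familyPoly_isHomogeneous (m := m) hE
    have hsh : IsSpectrahedralShadow (hyperbolicityCone (p k) (e₀ n)) :=
      ⟨a, r, A₀, A, B, h₀, hA, hB, hK⟩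
    have hgood := goodCone_family hm (hqbox k) (fun x hx y hy => cone_add hd hsh hx hy)
      (fun c hc x hx => by
        rcases hc.lt_or_eq with hc | hc
        · exact cone_smul hd hc hx
        · rw [← hc, zero_smul]; exact cone_zero (isHyperbolicPoly_family hE hm) hd)
    refine ⟨hgood, r + 1, ?_, isLift_of_lmi hgood h₀ hA hB hK⟩
    have hrM : r ≤ M := by
      have h1 : r + 1 ≤ sizeBound n (r + 1) := by
        have : r + 1 ≤ (r + 1) * (r + 1) := Nat.le_mul_self _
        exact this.trans (Nat.le_mul_of_pos_left _ (by omega))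
      omega
    have := Nat.le_findGreatest (P := fun r => sizeBound n (r + 1) < M) hrM hlt
    omega
  have hMpos : ∃ r ≤ M, sizeBound n (r + 1) < M := by
    obtain ⟨a, r, A₀, A, B, h₀, hA, hB, hK, hlt⟩ := hno (qs 0) (hqbox 0)
    refine ⟨r, ?_, hlt⟩
    have h1 : r + 1 ≤ sizeBound n (r + 1) := by
      have : r + 1 ≤ (r + 1) * (r + 1) := Nat.le_mul_self _
      exact this.trans (Nat.le_mul_of_pos_left _ (by omega))
    omega
  have hRspec : sizeBound n (R + 1) < M := by
    obtain ⟨r, hr, hr'⟩ := hMpos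
    exact Nat.findGreatest_spec (P := fun r => sizeBound n (r + 1) < M) hr hr'
  -- the limit cone
  set K' := hyperbolicityCone (familyPoly m (formOf ε)) (e₀ n) with hK'
  have hE' := smallForm_formOf _ hbox
  have htail : ∀ {l : Filter ℕ} {xs : ℕ → Fin (n + 1) → ℝ} {x : Fin (n + 1) → ℝ},
      Tendsto xs l (𝓝 x) → Tendsto (fun k => Fin.tail (xs k)) l (𝓝 (Fin.tail x)) :=
    fun h => tendsto_pi_nhds.mpr fun i => ((continuous_apply i.succ).tendsto _).comp h
  obtain ⟨s, hs, G, hG⟩ := lift_limit (K := fun k => hyperbolicityCone (p k) (e₀ n)) (K' := K')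
    (r := R + 1) (fun k => (hdata k).1) (fun k => (hdata k).2)
    (fun l hl hle xs x hmem hx => by
      rw [hK', mem_cone_iff_maxRoot hm hE']
      refine le_of_tendsto_of_tendsto
        (tendsto_maxRoot hm hqbox hbox (hlim.mono_left hle) (htail hx))
        (((continuous_apply 0).tendsto x).comp hx) ?_
      filter_upwards [hmem] with k hk
      exact (mem_cone_iff_maxRoot hm (smallForm_formOf _ (hqbox k)) _).mp hk)
    (fun x hx => by
      rw [hK', mem_cone_iff_maxRoot hm hE'] at hx
      refine ⟨fun k => Fin.cons (max (x 0) (maxRoot hm (formOf (εs k)) (Fin.tail x))) (Fin.tail x),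
        Eventually.of_forall fun k => ?_, ?_⟩
      · rw [mem_cone_iff_maxRoot hm (smallForm_formOf _ (hqbox k))]
        simp [εs]
      · rw [tendsto_pi_nhds]
        refine Fin.cases ?_ (fun i => ?_)
        · simp only [Fin.cons_zero]
          have := (tendsto_const_nhds (x := x 0)).max
            (tendsto_maxRoot hm hqbox hbox hlim (tendsto_const_nhds (x := Fin.tail x)))
          rwa [max_eq_left hx] at this
        · simp [Fin.tail])
  -- the limit lift is a linear matrix inequality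
  have hd := familyPoly_isHomogeneous (m := m) hE'
  have hadd : ∀ x ∈ K', ∀ y ∈ K', x + y ∈ K' := fun x hx y hy => by
    obtain ⟨M₁, h1, h1'⟩ := (hG.2 x).mp hx
    obtain ⟨M₂, h2, h2'⟩ := (hG.2 y).mp hy
    exact (hG.2 _).mpr ⟨M₁ + M₂, G.add_mem h1 h2, h1'.add h2'⟩
  have hgood' := goodCone_family hm hbox hadd (fun c hc x hx => by
    obtain ⟨M₁, h1, h1'⟩ := (hG.2 x).mp hx
    exact (hG.2 _).mpr ⟨c • M₁, G.smul_mem c h1, h1'.smul hc⟩)
  obtain ⟨a', A', B', hA', hB', hK''⟩ := lmi_of_isLift hgood' hG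
  have hb : M ≤ sizeBound n s :=
    lift_size_bound n m hm ε hind hbox a' s 0 A' B' Matrix.isSymm_zero hA' hB' hK''
  exact absurd (hb.trans (sizeBound_mono n hs)) (not_le.mpr hRspec)

end Vale.Agent.P256.SmoothLift
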